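import Crest.Agent.X262.Qt.Defs

/-!
# Row 262, QT (helper42), part 3: the residue field of `ord_O`

* `mem_kf`, `rho` : the residue field of `O` as a subfield of the residue field of `V`;
* `rfStmt : RfStmt`.
-/

set_option autoImplicit false

noncomputable section

namespace Crest.Agent.X262.Qt

open Crest.Agent.X277 Crest.Agent.X277.BD Polynomial
open Crest.Agent.X277.BD.Cyc (Rf plV lnr_plV surj_plV)
open Crest.Agent.X277.Res.Out.Lb (Cen)

variable {k F : Type} [Field k] [Field F] [Algebra k F] {O : Subalgebra k F} {V : RZ k F} {u : F}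

theorem r_mem_kf {x : F} (hx : x ∈ O) : (plV V).r x ∈ kf O V :=
  IntermediateField.subset_adjoin _ _ ⟨x, hx, rfl⟩

theorem mem_kf (h : Dom V.1 O) {y : Rf V} : y ∈ kf O V ↔ ∃ x ∈ O, (plV V).r x = y := by
  refine ⟨fun hy => ?_, fun ⟨x, hx, e⟩ => e ▸ r_mem_kf hx⟩
  refine IntermediateField.adjoin_induction k (p := fun y _ => ∃ x ∈ O, (plV V).r x = y)
    (fun _ h => h) (fun c => ⟨_, O.algebraMap_mem c, lnr_plV V c⟩) ?_ ?_ ?_ hy
  · rintro _ _ - - ⟨x, hx, rfl⟩ ⟨y, hy, rfl⟩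
    exact ⟨x + y, add_mem hx hy, Pl.r_add (h.le x hx) (h.le y hy)⟩
  · rintro _ - ⟨x, hx, rfl⟩
    by_cases h1 : (plV V).r x = 0
    · exact ⟨0, zero_mem _, by rw [h1, inv_zero, Pl.r_zero]⟩
    · exact ⟨x⁻¹, h.inv x hx (Pl.r_ne_zero_iff.1 h1), Pl.r_inv x⟩
  · rintro _ _ - - ⟨x, hx, rfl⟩ ⟨y, hy, rfl⟩
    exact ⟨x * y, mul_mem hx hy, Pl.r_mul (h.le x hx) (h.le y hy)⟩

/-- the residue map of `O` -/
def rho (h : ∀ x ∈ O, x ∈ V.1) : O →+* kf O V where
  toFun x := ⟨(plV V).r x, r_mem_kf x.2⟩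
  map_one' := Subtype.ext (plV V).r_one
  map_zero' := Subtype.ext (plV V).r_zero
  map_mul' x y := Subtype.ext (Pl.r_mul (h _ x.2) (h _ y.2))
  map_add' x y := Subtype.ext (Pl.r_add (h _ x.2) (h _ y.2))

theorem rho_surj (h : Dom V.1 O) : Function.Surjective (rho h.le) := fun y => by
  obtain ⟨x, hx, e⟩ := (mem_kf h).1 y.2
  exact ⟨⟨x, hx⟩, Subtype.ext e⟩

theorem aeval_mem (h : ∀ x ∈ O, x ∈ V.1) (hu : u ∈ V.1) (q : O[X]) : aeval u q ∈ V.1 :=
  adj_le_val h (by rintro _ rfl; exact hu) _ (aeval_mem_adj q u)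

theorem r_aeval (h : ∀ x ∈ O, x ∈ V.1) (hu : u ∈ V.1) (q : O[X]) :
    (plV V).r (aeval u q) = aeval ((plV V).r u) (q.map (rho h)) := by
  induction q using Polynomial.induction_on' with
  | add p q hp hq =>
    rw [map_add, Pl.r_add (aeval_mem h hu p) (aeval_mem h hu q), hp, hq, Polynomial.map_add,
      map_add]
  | monomial m a =>
    rw [aeval_monomial, Polynomial.map_monomial, aeval_monomial, ← Pl.r_pow (p := plV V) hu]
    exact Pl.r_mul (p := plV V) (h _ a.2) (pow_mem hu m)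

theorem Tr.transcendental (h : Dom V.1 O) (hu : u ∈ V.1) (ht : Tr O V.1 u) :
    Transcendental (kf O V) ((plV V).r u) := by
  rintro ⟨p, h0, h1⟩
  obtain ⟨q, rfl⟩ := Polynomial.map_surjective _ (rho_surj h) p
  rw [← r_aeval h.le hu, Pl.r_eq_zero (aeval_mem h.le hu q)] at h1
  refine h0 (Polynomial.ext fun i => Subtype.ext ?_)
  rw [coeff_map]
  exact (Pl.r_eq_zero (p := plV V) (h.le _ (q.coeff i).2)).2 (ht q h1 i)

theorem adjoin_eq_top (h : ∀ x ∈ O, x ∈ V.1) (hc : Cen V.1 (adj O {u})) :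
    IntermediateField.adjoin (kf O V) {(plV V).r u} = ⊤ := by
  have hu : u ∈ V.1 := hc.le u (mem_adj rfl)
  have h1 : ∀ a ∈ adj O {u}, (plV V).r a ∈ IntermediateField.adjoin (kf O V) {(plV V).r u} := by
    intro a ha
    obtain ⟨q, rfl⟩ := exists_aeval ha
    rw [r_aeval h hu]
    exact IntermediateField.algebra_adjoin_le_adjoin _ _ (aeval_mem_adjoin_singleton _ _)
  refine eq_top_iff.2 fun y _ => ?_
  obtain ⟨x, rfl⟩ := surj_plV V y
  obtain ⟨b, hb, h2, h3⟩ := hc.loc x x.2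
  rw [← Pl.r_coe, ← mul_div_cancel_left₀ (x : F) (ne_of_val h2),
    Pl.r_div (p := plV V) (hc.le _ h3) h2]
  exact div_mem (h1 _ h3) (h1 _ hb)

theorem rfStmt : RfStmt := by
  intro k F _ _ _ O t V h
  have hu : t 1 / t 0 ∈ V.1 := h.cen.le _ (mem_adj rfl)
  let e : RatFunc (kf O V) ≃ₐ[kf O V] Rf V :=
    ((RatFunc.algEquivOfTranscendental _ (h.tr.transcendental h.dom hu)).trans
      (IntermediateField.equivOfEq (adjoin_eq_top h.dom.le h.cen))).trans
      IntermediateField.topEquiv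
  refine ⟨e.symm.restrictScalars k, fun x => e.symm.commutes x, e.symm_apply_eq.2 ?_⟩
  exact (RatFunc.algEquivOfTranscendental_X _ (h.tr.transcendental h.dom hu)).symm

end Crest.Agent.X262.Qt
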