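import Crest.Agent.X262.Qt.Disc
import Crest.Agent.X262.Qt.Rf
import Crest.Agent.X262.R139.Main

/-!
# Row 262, QT (helper42), part 5: `QtStmt`

* `o W f`     : the order of `f` along `W`;
* `exists_pe` : a valuation ring which is a localisation of a factorial ring;
* `qtStmt : QtStmt`.
-/

set_option autoImplicit false

noncomputable section

namespace Crest.Agent.X262.Qt

open Crest.Agent.X277 Crest.Agent.X277.Lef Crest.Agent.X277.BD Crest.Agent.X277.BD.Br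
open Crest.Agent.X277.Pst (Prm Dvs loc)
open Crest.Agent.X277.Neg (nv IsNv isNv_nv)
open Crest.Agent.X277.AN.G1
open Crest.Agent.X277.Res.Out (Un Van Coords)
open Crest.Agent.X277.Res.Out.Lb
open WithZero Module
open scoped KaehlerDifferential

section Gen

variable {k F : Type} [Field k] [Field F] [Algebra k F] {L : Subalgebra k F}

/-- the order of `f` along `W` -/
def o (W : RZ k F) (f : F) : ℤ := -log (nv W f)

variable {W : RZ k F} {f g : F}

theorem o_mul (hf : f ≠ 0) (hg : g ≠ 0) : o W (f * g) = o W f + o W g := by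
  rw [o, map_mul, log_mul (Link.v_ne hf) (Link.v_ne hg), neg_add, o, o]

theorem o_one : o W 1 = 0 := by simp [o]

theorem o_pow (f : F) (m : ℕ) : o W (f ^ m) = m * o W f := by simp [o]

/-- a valuation ring which is a localisation of a factorial ring -/
theorem exists_pe [IsNoetherianRing L] [UniqueFactorizationMonoid L]
    (hfr : ∀ x : F, ∃ a ∈ L, ∃ c ∈ L, c ≠ 0 ∧ x = a / c) {V : ValuationSubring F} (hc : Cen V L)
    (h0 : V ≠ ⊤) : ∃ (π : F) (h : PE L π), vt h = V := by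
  have hp := isPrime_ctr hc.le
  have h3 : ctr V L ≠ ⊥ := fun h3 => h0 (by
    refine eq_top_iff.2 fun x _ => ?_
    obtain ⟨a, ha, c, hc', hc0, rfl⟩ := hfr x
    refine div_mem_of_le hc0 ?_
    rw [val_eq_one_of_notMem hc.le (a := ⟨c, hc'⟩) fun h4 =>
      hc0 (Subtype.ext_iff.1 (Ideal.mem_bot.1 (h3 ▸ h4 : (⟨c, hc'⟩ : L) ∈ ⊥)))]
    exact val_le (hc.le a ha))
  obtain ⟨π, h4, h5⟩ := hp.exists_mem_prime_of_ne_bot h3
  have hE := R139.pe_of_prime hfr h5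
  have h6 := (mem_ctr hc.le).1 h4
  have h7 : V ≤ vt hE := hc.le_of_ctr hE.cen.le fun a ha => (mem_ctr hc.le).2 (by
    rw [← mul_div_cancel₀ (a : F) hE.ne]
    exact val_mul_lt h6 (hc.le _ (hE.div_mem a.2 ((mem_ctr hE.cen.le).1 ha))))
  refine ⟨π, hE, le_antisymm (hE.cen.le_of_ctr hc.le fun a ha => (mem_ctr hE.cen.le).2 ?_) h7⟩
  by_contra h8
  have h9 : (vt hE).valuation a = 1 := le_antisymm (val_le (hE.cen.le _ a.2)) (not_lt.1 h8)
  have h10 := ne_of_val h9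
  rcases V.mem_or_inv_mem (a / π) with h11 | h11
  · have h12 := val_mul_lt hE.val_lt (h7 h11)
    rw [mul_div_cancel₀ _ hE.ne] at h12
    exact h8 h12
  · rw [inv_div] at h11
    obtain ⟨c, -, h12, h13⟩ := hc.loc _ h11
    have h14 : (vt hE).valuation (c * (π / a)) < 1 := by
      rw [mul_comm, div_eq_mul_inv, mul_assoc]
      refine val_mul_lt hE.val_lt (mul_mem ?_ (h7 ((V.valuation_le_one_iff _).1 h12.le)))
      rw [← ValuationSubring.valuation_le_one_iff, map_inv₀, h9, inv_one]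
    have h15 := val_mul_lt ((mem_ctr hc.le).1 ha) (hc.le _ (hE.div_mem h13 h14))
    rw [show (a : F) * (c * (π / a) / π) = c by have := hE.ne; field_simp] at h15
    exact h15.ne h12

theorem exists_isNv {ϖ : F} (h : Unif W.1 ϖ) : ∃ v, IsNv W v := by
  obtain ⟨v, h1, h2⟩ := Link.exists_zv W.1.valuation h.ne h.lt fun x hx => by
    rcases W.1.mem_or_inv_mem x with h1 | h1
    · obtain ⟨m, hm⟩ := h.ex x hx h1
      exact ⟨m, by rw [hm, zpow_natCast]⟩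
    · obtain ⟨m, hm⟩ := h.ex _ (inv_ne_zero hx) h1
      exact ⟨-m, by rw [zpow_neg, zpow_natCast, ← hm, map_inv₀, inv_inv]⟩
  exact ⟨v, ⟨ϖ, h1⟩, h2⟩

variable [CharZero k] [Algebra.EssFiniteType k F] (hW : Dvs W)
include hW

theorem o_le_iff (hf : f ≠ 0) (hg : g ≠ 0) : o W g ≤ o W f ↔ W.v f ≤ W.v g := by
  rw [o, o, neg_le_neg_iff, log_le_log (Link.v_ne hf) (Link.v_ne hg), Geo.nv_le_iff hW]

theorem o_lt_iff (hf : f ≠ 0) (hg : g ≠ 0) : o W g < o W f ↔ W.v f < W.v g := by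
  rw [← not_le, ← not_le, o_le_iff hW hg hf]

theorem o_eq (hf : f ≠ 0) (hg : g ≠ 0) (h : W.v f = W.v g) : o W f = o W g :=
  le_antisymm ((o_le_iff hW hg hf).2 h.ge) ((o_le_iff hW hf hg).2 h.le)

theorem o_nonneg (hf : f ≠ 0) (h : f ∈ W.1) : 0 ≤ o W f := by
  rw [← o_one (W := W), o_le_iff hW hf one_ne_zero, map_one]
  exact val_le h

theorem o_pos (hf : f ≠ 0) : 0 < o W f ↔ W.v f < 1 := by
  rw [← o_one (W := W), o_lt_iff hW hf one_ne_zero, map_one]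

theorem o_unit (h : W.v f = 1) : o W f = 0 :=
  (o_eq hW (ne_of_val h) one_ne_zero (h.trans (map_one _).symm)).trans o_one

theorem exists_o : ∃ ϖ, ϖ ≠ 0 ∧ o W ϖ = 1 := by
  obtain ⟨t, ht⟩ := Geo.nv_unif hW
  exact ⟨t, fun h => exp_ne_zero (ht.symm.trans (by rw [h, map_zero])), by simp [o, ht]⟩

theorem o_eq_one (hf : f ≠ 0) (h1 : W.v f < 1) (h : ∀ y, W.v y < 1 → W.v y ≤ W.v f) :
    o W f = 1 := by
  obtain ⟨t, h0, ht⟩ := exists_o hW
  exact le_antisymm (ht ▸ (o_le_iff hW h0 hf).2 (h t ((o_pos hW h0).1 (ht ▸ one_pos))))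
    ((o_pos hW hf).2 h1)

theorem dv_of_dvs : Dv k W.1 := by
  obtain ⟨t, h0, ht⟩ := exists_o hW
  obtain ⟨B, z, i, hz, -, -, -, h1, -, h2, h3⟩ :=
    R276.DivVal_858.exists_chart_of_isDiv (Slope.dm_eq_trdeg k F).symm hW
  refine ⟨⟨t, h0, (o_pos hW h0).1 (ht ▸ one_pos), fun x hx hx' => ⟨(o W x).toNat, ?_⟩⟩,
    B, hz.fg, h1, fun x hx => ?_⟩
  · have h4 : o W (t ^ (o W x).toNat) = o W x := by
      rw [o_pow, ht, mul_one, Int.toNat_of_nonneg (o_nonneg hW hx hx')]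
    rw [← map_pow]
    exact le_antisymm ((o_le_iff hW hx (pow_ne_zero _ h0)).1 h4.le)
      ((o_le_iff hW (pow_ne_zero _ h0) hx).1 h4.ge)
  · obtain ⟨a, c, h4, h5⟩ := (h2 x).1 hx
    exact ⟨c, c.2, le_antisymm (val_le (h1 _ c.2)) (not_lt.1 (mt (h3 c).1 h4)),
      by rw [mul_comm, h5]; exact a.2⟩

end Gen

variable {F : Type} [Field F] [Algebra ℂ F] {P : PModel ℂ F} {n : ℕ} {W E : RZ ℂ F}
  {i : Fin (P.N + 1)} {O : Subalgebra ℂ F} {f : F}

theorem loc_eq (h : ∀ x ∈ P.A i, x ∈ W.1) : loc (oP P) W = lv (P.A i) W.1 :=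
  le_antisymm (fun _ hf => Geo.exists_den h hf)
    (Dom.lv_le ⟨fun _ => Pst.mem_of_loc, fun _ => Neg.inv_mem_loc⟩ fun _ => Geo.A_le_loc h)

theorem dom_loc : Dom W.1 (loc (oP P) W) := ⟨fun _ => Pst.mem_of_loc, fun _ => Neg.inv_mem_loc⟩

theorem frac_loc (x : F) : ∃ a ∈ loc (oP P) W, ∃ c ∈ loc (oP P) W, c ≠ 0 ∧ x = a / c := by
  obtain ⟨i, -, hi⟩ := Br.exists_chart (P := P) W
  exact frac_mono (fun _ => Geo.A_le_loc hi) (P.frac' i) x

theorem exists_reg_loc (b : Basis (Fin n) F Ω[F⁄ℂ]) (P : PModel ℂ F) (W : RZ ℂ F) :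
    ∃ (z : Fin n → F) (S : Finset (Fin n)), Reg (loc (oP P) W) z S := by
  obtain ⟨i, -, hi⟩ := Br.exists_chart (P := P) W
  rw [loc_eq hi]
  have := P.finiteType i
  have : Algebra.FormallySmooth ℂ (P.A i) := (P.smooth i).formallySmooth
  have : IsNoetherianRing (P.A i) := Algebra.FiniteType.isNoetherianRing ℂ _
  have := (dom_lv hi).isLocalRing
  have := formallySmooth_lv hi
  have := essFiniteType_lv hi
  have := isNoetherianRing_lv hi
  have := isFractionRing_of (frac_mono (le_lv _ W.1) (P.frac' i))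
  exact exists_reg b

theorem prm_iff (hW : Dvs W) : Prm (oP P) W ↔ ∀ x ∈ W.1, x ∈ loc (oP P) W :=
  have := Geo.eft P
  ⟨fun h _ => Neg.le_loc Br.free_oP (Geo.isMod_oP P).bir h,
    Geo.prm_of_loc (Geo.isMod_oP P) (isNv_nv hW)⟩

/-- the primes of height one of the local ring of a smooth subvariety -/
theorem SmZ.cen {c : ℕ} (h : SmZ P O n c) (h0 : W.1 ≠ ⊤) (hc : Cen W.1 O) :
    Prm (oP P) W ∧ ∀ E : RZ ℂ F, Dvs E → Dom E.1 O → ∀ f ∈ O, f ≠ 0 → o W f ≤ o E f := by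
  have := Geo.eft P
  obtain ⟨x, hx⟩ := h.ne
  have h1 : Cen W.1 (lp x).O := ⟨fun f hf => hc.le f (hx hf), fun f hf => by
    obtain ⟨e, h2, h3, h4⟩ := hc.loc f hf
    obtain ⟨e', h5, h6, h7⟩ := (R139.SmZ.isLoc h hx).exists_den (Set.toFinite {e, e * f})
      (by rintro _ (rfl | rfl); exacts [h2, h4])
    exact ⟨e' * e, h7 e (by simp), by rw [map_mul, val_un hc.le h6, h3, one_mul],
      mul_assoc e' e f ▸ h7 _ (by simp)⟩⟩
  obtain ⟨π, hπ, h2⟩ := exists_pe (frac_lp x) h1 h0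
  have h3 : Unif W.1 π := h2 ▸ hπ.unif
  obtain ⟨v, hv⟩ := exists_isNv h3
  have h4 : Prm (oP P) W := Geo.prm_of_loc (Geo.isMod_oP P) hv fun f hf =>
    dom_loc.lv_le (fun _ => Geo.lp_le_loc h1.le) (h1.loc f hf)
  refine ⟨h4, fun E hE hd f hf hf0 => ?_⟩
  obtain ⟨e, -, h5, h6⟩ := h.loc x hx f hf
  obtain ⟨m, h7, h8⟩ := hπ.fac _ h6 (mul_ne_zero h5.1 hf0)
  have h9 : W.v (e * f / π ^ m) = 1 := by
    have h9 := hπ.val_eq_one h7 h8
    rwa [h2] at h9
  have h10 : ∀ V : RZ ℂ F, o V e + o V f = o V (e * f / π ^ m) + m * o V π := fun V => by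
    rw [← o_pow, ← o_mul h5.1 hf0, ← o_mul (ne_of_val h9) (pow_ne_zero _ hπ.ne),
      div_mul_cancel₀ _ (pow_ne_zero _ hπ.ne)]
  have h11 := h10 W
  have h12 := h10 E
  rw [o_unit h4.dvs (val_un hc.le h5), o_unit h4.dvs h9,
    o_eq_one h4.dvs hπ.ne h3.lt fun _ => h3.le_of_lt] at h11
  rw [o_unit hE (val_un hd.le h5)] at h12
  have h13 := o_nonneg hE (ne_of_val h9) (hd.le _ (hx h7))
  have h14 := (o_pos hE hπ.ne).2 (hd.lt ⟨hx hπ.mem, fun hu => h3.lt.ne (val_un hc.le hu)⟩)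
  nlinarith

theorem qtStmt : QtStmt := by
  intro F _ _ P
  classical
  have := Geo.eft P
  obtain ⟨b⟩ := exists_basis P
  choose y S hy using exists_reg_loc b P
  choose! w hw using fun W (hW : Dvs W) =>
    (hy W).exists_frV b (dv_of_dvs hW) dom_loc frac_loc
  refine ⟨fun W => (o W (jac b (y W)) - o W (jac b (w W))).toNat, fun E hE hn => ?_⟩
  obtain ⟨i, -, hi⟩ := Br.exists_chart (P := P) E
  obtain ⟨U, hU, z, l₀, l₁, h⟩ := ((hy E).good' (dv_of_dvs hE) dom_loc frac_loc).resolve_left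
    (mt (prm_iff hE).2 hn)
  rw [loc_eq hi, lv_adj_lv hi hU] at h
  change Last (ring P i U E) E.1 z l₀ l₁ at h
  have hA : P.A i ≤ ring P i U E := (le_adj _ _).trans (le_lv _ _)
  have hL : lv (P.A i) E.1 ≤ ring P i U E := lv_mono (le_adj _ _)
  have hfr := frac_mono hA (P.frac' i)
  have hy0 := (loc_eq hi ▸ hy E).fr
  have hz := h.reg.fr.jac_ne b
  have hq := h.reg.fr.jac_div_mem b fun l => hL (hy0.mem l)
  have hq0 := div_ne_zero (hy0.jac_ne b) hz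
  set q := jac b (y E) / jac b z with hqe
  -- the discrepancy of a valuation ring over `O`
  have h1 : ∀ W : RZ ℂ F, Dvs W → (∀ x ∈ ring P i U E, x ∈ W.1) →
      o W (jac b (y W)) = o W q + o W (jac b z) := fun W hW hO => by
    have h2 : ∀ x ∈ P.A i, x ∈ W.1 := fun x hx => hO x (hA hx)
    have h3 := hy0.lv W.1
    rw [lv_lv hi fun x hx => hO x (hL hx), ← loc_eq h2] at h3
    rw [← o_mul hq0 hz, hqe, div_mul_cancel₀ _ hz]
    exact o_eq hW ((hy W).fr.jac_ne b) (h3.jac_ne b) ((hy W).fr.val_eq b h3 dom_loc.le)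
  have h2 : o E (z l₀) = 1 := o_eq_one hE (h.reg.fr.ne_zero _) h.lt₀ fun _ => h.le_of_lt
  have h3 : o E (jac b (y E)) - o E (jac b (w E)) = o E q + 1 := by
    rw [h1 E hE h.dom.le, jac_blow b h.ne (h.reg.fr.ne_zero _),
      o_mul (h.reg.fr.ne_zero _) (h.frV.jac_ne b), h2,
      o_eq hE (h.frV.jac_ne b) ((hw E hE).jac_ne b) (h.frV.val_eq b (hw E hE))]
    ring
  have h4 := o_nonneg hE hq0 (h.dom.le _ hq)
  obtain ⟨P', -, h5, -⟩ := R139.model2 F _ b P E i U _ ∅ hi hU h.ord2.coords (by simp)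
  have h6 : ∀ W : RZ ℂ F, W.1 ≠ ⊤ → Cen W.1 (ring P i U E) →
      o W (jac b (y W)) - o W (jac b (w W)) = o W q := fun W h0 hc => by
    have hW := (h5.cen h0 hc).1.dvs
    rw [h1 W hW hc.le, o_eq hW hz ((hw W hW).jac_ne b)
      (FrV.val_eq b ⟨_, hc, h.reg.fr⟩ (hw W hW)), add_sub_cancel_right]
  have h7 : {W : RZ ℂ F | (W.1 ≠ ⊤ ∧ Cen W.1 (ring P i U E)) ∧ ¬ Prm (oP P) W}.Finite := by
    refine (Geo.fin_od (Geo.isMod_oP P') (pr ℂ q)).subset fun W ⟨⟨h0, hc⟩, hW⟩ => ?_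
    have h8 := (h5.cen h0 hc).1
    have h9 := (o_lt_iff h8.dvs ((hy W).fr.jac_ne b) ((hw W h8.dvs).jac_ne b)).2
      ((hy W).val_lt b (dv_of_dvs h8.dvs) dom_loc frac_loc (mt (prm_iff h8.dvs).2 hW) (hw W h8.dvs))
    refine ⟨h8, ?_⟩
    rw [Geo.od_pr hq0, ← neg_ne_zero]
    exact (h6 W h0 hc ▸ sub_pos.2 h9 : 0 < o W q).ne'
  refine ⟨i, U, _, h7.toFinset, hi, hU, h.ord2, fun W hW hd => ?_, fun W hW hd => ?_,
    fun W h0 hc => ?_, fun W hW => ?_⟩
  · refine or_iff_not_imp_left.2 fun hne => ?_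
    obtain ⟨x, h8, h9, h10⟩ := h.val_lt b (dv_of_dvs hW) hd hfr (mt Subtype.ext hne) (hw W hW)
    obtain ⟨t, ht0, ht⟩ := exists_o hW
    have h11 : ∀ l ∈ ({l₀, l₁} : Finset _), W.v (z l) ≤ W.v t := fun l hl =>
      (o_le_iff hW (h.reg.fr.ne_zero l) ht0).1
        (ht ▸ (o_pos hW (h.reg.fr.ne_zero l)).2 (hd.lt (h.reg.van l hl)))
    have h12 := h.val_le_pow hd.le (h11 l₀ (by simp)) (h11 l₁ (by simp)) hq (m := (o E q).toNat)
      (by
        rw [← map_pow]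
        refine (o_le_iff hE hq0 (pow_ne_zero _ (h.reg.fr.ne_zero _))).1 ?_
        rw [o_pow, h2, mul_one, Int.toNat_of_nonneg h4])
    rw [← map_pow] at h12
    have h13 := (o_le_iff hW hq0 (pow_ne_zero _ ht0)).2 h12
    rw [o_pow, ht, mul_one, Int.toNat_of_nonneg h4] at h13
    have h14 := (o_lt_iff hW hz (mul_ne_zero h8 ((hw W hW).jac_ne b))).2 h10
    rw [o_mul h8 ((hw W hW).jac_ne b)] at h14
    have h15 := (o_pos hW h8).2 h9
    have h16 := h1 W hW hd.le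
    omega
  · refine h.not_le (W := W.1) fun x hx => hd.lv_le hA ?_
    rw [← loc_eq fun x hx => hd.le x (hA hx)]
    exact (prm_iff hW.dvs).1 hW x hx
  · exact or_iff_not_imp_left.2 fun hW => h7.mem_toFinset.2 ⟨⟨h0, hc⟩, hW⟩
  · obtain ⟨⟨h0, hc⟩, h8⟩ := h7.mem_toFinset.1 hW
    have h9 := (h5.cen h0 hc).2 E hE h.dom q hq hq0
    have h10 := h6 W h0 hc
    exact ⟨(h5.cen h0 hc).1.dvs, h8, by omega⟩

end Crest.Agent.X262.Qt
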