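import Crest.Agent.X262.Qt.Loc

/-!
# Row 262, QT (helper42), part 2: smooth local rings with an arbitrary residue field

* `mem_sq_of_tmul`          : the conormal sequence of a residue field is left exact;
* `formallySmooth_of_coords`: parameters with dual derivations give smoothness;
* `Dual.D_eq`, `Dual.jac_eq`: differentials and Jacobians in a frame;
* `exists_fr`, `exists_reg`, `exists_reg_of_coords` : smooth local rings have coordinates.
-/

set_option autoImplicit false

noncomputable section

namespace Crest.Agent.X262.Qt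

open Crest.Agent.X277.Res Crest.Agent.X277.Res.Out Crest.Agent.X277.Res.Out.Lb
open Crest.Agent.X277.Lef KaehlerDifferential TensorProduct Module

section Abstract

theorem mem_sq_of_tmul {k P κ : Type*} [CommRing k] [CommRing P] [CommRing κ] [Algebra k P]
    [Algebra k κ] [Algebra P κ] [IsScalarTower k P κ] [Algebra.FormallySmooth k P]
    [Algebra.FormallySmooth k κ] (h : Function.Surjective (algebraMap P κ)) {f : P}
    (hf : algebraMap P κ f = 0) (h0 : (1 : κ) ⊗ₜ[P] D k P f = 0) :
    f ∈ RingHom.ker (algebraMap P κ) ^ 2 := by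
  obtain ⟨l, hl⟩ := (Algebra.FormallySmooth.iff_split_injection (R := k) h).1 inferInstance
  have h1 := LinearMap.congr_fun hl (Ideal.toCotangent _ ⟨f, hf⟩)
  rw [LinearMap.comp_apply, kerCotangentToTensor_toCotangent, h0, map_zero] at h1
  exact (Ideal.toCotangent_eq_zero _ _).1 h1.symm

/-- the equations vanishing to second order are redundant -/
theorem ker_inf_sq_le {k P O : Type*} [CommRing k] [CommRing P] [CommRing O] [Algebra k O]
    [IsNoetherianRing P] [IsLocalRing P] (π : P →+* O) (hπ : Function.Surjective π) {ι : Type*}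
    [Fintype ι] [DecidableEq ι] {m : Ideal O} [hm : m.IsPrime] [CharZero (O ⧸ m)] (t : ι → O)
    (ht : m = Ideal.span (Set.range t)) (d : ι → Derivation k O O)
    (hd : ∀ i j, d i (t j) = if i = j then 1 else 0) {f : P} (hf : π f = 0)
    (hf2 : f ∈ m.comap π ^ 2) : f ∈ m.comap π * RingHom.ker π := by
  set M := m.comap π with hM
  set I := RingHom.ker π with hI
  choose T hT using fun j => hπ (t j)
  set J := Ideal.span (Set.range T) with hJ
  have hJM : J ≤ M := by
    rw [hJ, Ideal.span_le]
    rintro _ ⟨j, rfl⟩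
    change π (T j) ∈ m
    rw [hT, ht]
    exact Ideal.subset_span ⟨j, rfl⟩
  have hMJ : M ≤ J ⊔ I := by
    intro g hg
    have h1 : π g ∈ m := hg
    rw [ht, Ideal.mem_span_range_iff_exists_fun] at h1
    obtain ⟨c, hc⟩ := h1
    choose C hC using fun j => hπ (c j)
    refine Submodule.mem_sup.2 ⟨∑ j, C j * T j, Ideal.sum_mem _ fun j _ =>
      Ideal.mul_mem_left _ _ (Ideal.subset_span ⟨j, rfl⟩), g - ∑ j, C j * T j, ?_, by ring⟩
    rw [hI, RingHom.mem_ker, map_sub, map_sum, ← hc]
    simp [hC, hT]
  have hA : ∀ N : ℕ, M ^ (N + 2) ≤ J ^ (N + 2) ⊔ M * I := by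
    have key : ∀ N : ℕ, M * J ^ (N + 1) ≤ J ^ (N + 2) ⊔ M * I := by
      intro N
      refine (Ideal.mul_mono_left hMJ).trans ?_
      rw [Ideal.sup_mul, ← pow_succ']
      refine sup_le_sup_left ?_ _
      rw [mul_comm]
      exact Ideal.mul_mono_left ((Ideal.pow_le_self (Nat.succ_ne_zero N)).trans hJM)
    intro N
    induction N with
    | zero =>
      rw [zero_add, pow_two M]
      refine (Ideal.mul_mono_right hMJ).trans ?_
      rw [Ideal.mul_sup]
      exact sup_le (by simpa using key 0) le_sup_right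
    | succ N ih =>
      rw [pow_succ' M]
      refine (Ideal.mul_mono_right ih).trans ?_
      rw [Ideal.mul_sup]
      exact sup_le (key (N + 1)) (le_sup_of_le_right Ideal.mul_le_right)
  have hB : ∀ N : ℕ, ∀ g ∈ I, g ∈ J ^ N → g ∈ M ^ (N + 1) := by
    intro N g hg hg'
    obtain ⟨p, hp, rfl⟩ := (Ideal.mem_span_pow_iff_exists_isHomogeneous T g).1 hg'
    have h1 : MvPolynomial.eval t (MvPolynomial.map π p) = 0 := by
      rw [← RingHom.mem_ker.1 hg, MvPolynomial.eval_map, ← show π ∘ T = t from funext hT]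
      exact (MvPolynomial.eval₂_comp π T p).symm
    have h2 := P0.map_eq_zero_of_mem m ⊥ t d hd (by simp) bot_le ht.ge N _ (hp.map π)
      (by rw [h1]; exact zero_mem _)
    rw [MvPolynomial.map_map] at h2
    rw [p.as_sum, map_sum]
    refine Ideal.sum_mem _ fun s hs => ?_
    rw [← mul_one (MvPolynomial.coeff s p), ← MvPolynomial.C_mul_monomial, map_mul,
      MvPolynomial.eval_C, pow_succ']
    refine Ideal.mul_mem_mul ?_ (Ideal.pow_right_mono hJM N ?_)
    · have h4 := congrArg (MvPolynomial.coeff s) h2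
      rw [MvPolynomial.coeff_map, MvPolynomial.coeff_zero] at h4
      exact (Ideal.Quotient.eq_zero_iff_mem (I := m)).1 h4
    · rw [hJ, Ideal.mem_span_pow_iff_exists_isHomogeneous]
      refine ⟨_, MvPolynomial.isHomogeneous_monomial _ ?_, rfl⟩
      rw [← hp (MvPolynomial.mem_support_iff.mp hs), Finsupp.degree_eq_weight_one]
      rfl
  have hC : ∀ N : ℕ, f ∈ M * I ⊔ M ^ (N + 2) := by
    intro N
    induction N with
    | zero => exact Submodule.mem_sup_right hf2
    | succ N ih =>
      have h1 : f ∈ M * I ⊔ J ^ (N + 2) :=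
        (sup_le le_sup_left ((hA N).trans (by rw [sup_comm]))) ih
      obtain ⟨a, ha, b, hb, rfl⟩ := Submodule.mem_sup.1 h1
      refine Submodule.add_mem_sup ha (hB _ b ?_ hb)
      have h2 : a + b ∈ I := hf
      exact (add_mem_cancel_left (Ideal.mul_le_right ha)).1 h2
  exact mem_of_forall_sup_pow (Ideal.comap_ne_top π hm.ne_top) fun N =>
    (sup_le_sup_left (Ideal.pow_le_pow_right (Nat.le_add_right N 2)) (M * I) :) (hC N)

theorem formallySmooth_residueField (k O : Type*) [Field k] [CharZero k] [CommRing O]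
    [Algebra k O] [IsLocalRing O] [Algebra.EssFiniteType k O] :
    Algebra.FormallySmooth k (IsLocalRing.ResidueField O) :=
  have := Algebra.EssFiniteType.of_surjective
    (IsScalarTower.toAlgHom k O (IsLocalRing.ResidueField O)) IsLocalRing.residue_surjective
  Algebra.FormallySmooth.of_perfectField

/-- **Jacobian criterion from parameters**, any residue field -/
theorem formallySmooth_of_dual {k A O : Type} [Field k] [CharZero k] [CommRing A] [CommRing O]
    [Algebra k A] [Algebra.FiniteType k A] [Algebra k O] [Algebra A O] [IsScalarTower k A O]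
    (q : Ideal A) [q.IsPrime] [IsLocalization.AtPrime O q] [IsLocalRing O] {ι : Type} [Fintype ι]
    [DecidableEq ι] (t : ι → O) (ht : IsLocalRing.maximalIdeal O = Ideal.span (Set.range t))
    (d : ι → Derivation k O O) (hd : ∀ i j, d i (t j) = if i = j then 1 else 0) :
    Algebra.FormallySmooth k O := by
  obtain ⟨c, π₀, hπ₀⟩ := Algebra.FiniteType.iff_quotient_mvPolynomial''.1
    (inferInstance : Algebra.FiniteType k A)
  let A₀ := MvPolynomial (Fin c) k
  let p : Ideal A₀ := q.comap π₀
  have hp : p.IsPrime := Ideal.comap_isPrime _ _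
  let P := Localization.AtPrime p
  let gPO : P →+* O := IsLocalization.lift (M := p.primeCompl)
    (g := (algebraMap A O).comp (π₀ : A₀ →+* A))
    fun y => IsLocalization.map_units O (⟨π₀ y, y.2⟩ : q.primeCompl)
  let : Algebra P O := gPO.toAlgebra
  have e1 : ∀ a : A₀, algebraMap P O (algebraMap A₀ P a) = algebraMap A O (π₀ a) := fun a =>
    IsLocalization.lift_eq _ _
  have : IsScalarTower k P O := IsScalarTower.of_algebraMap_eq fun x => by
    rw [IsScalarTower.algebraMap_apply k A₀ P, e1, AlgHom.commutes,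
      ← IsScalarTower.algebraMap_apply]
  have : Algebra.FormallyEtale A₀ P := Algebra.FormallyEtale.of_isLocalization p.primeCompl
  have : Algebra.FormallySmooth k P := Algebra.FormallySmooth.comp k A₀ P
  let e := tensorKaehlerEquivOfFormallyEtale k A₀ P
  have : Module.Free P Ω[P⁄k] := Module.Free.of_equiv e
  have : Module.Finite P Ω[P⁄k] := Module.Finite.equiv e
  have hsurj : Function.Surjective (algebraMap P O) := by
    intro y
    obtain ⟨a, s, rfl⟩ := IsLocalization.exists_mk'_eq q.primeCompl y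
    obtain ⟨a, rfl⟩ := hπ₀ a
    obtain ⟨s, hs⟩ := s
    obtain ⟨s, rfl⟩ := hπ₀ s
    refine ⟨IsLocalization.mk' P a (⟨s, hs⟩ : p.primeCompl), ?_⟩
    rw [IsLocalization.eq_mk'_iff_mul_eq]
    change algebraMap P O _ * algebraMap _ O (π₀ s) = _
    rw [← e1, ← map_mul, IsLocalization.mk'_spec, e1]
  have : Algebra.EssFiniteType A O := Algebra.EssFiniteType.of_isLocalization O q.primeCompl
  have : Algebra.EssFiniteType k O := Algebra.EssFiniteType.comp k A O
  have := formallySmooth_residueField k O
  have : CharZero (O ⧸ IsLocalRing.maximalIdeal O) :=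
    charZero_of_injective_algebraMap (algebraMap k (IsLocalRing.ResidueField O)).injective
  have hs : Function.Surjective (algebraMap P (IsLocalRing.ResidueField O)) :=
    IsLocalRing.residue_surjective.comp hsurj
  have hker : RingHom.ker (algebraMap P (IsLocalRing.ResidueField O)) =
      (IsLocalRing.maximalIdeal O).comap (algebraMap P O) :=
    Ideal.ext fun _ => IsLocalRing.residue_eq_zero_iff _
  rw [Algebra.FormallySmooth.iff_injective_cotangentComplexBaseChange_residueField P hsurj
    (IsNoetherian.noetherian _), injective_iff_map_eq_zero]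
  intro x hx
  obtain ⟨f, rfl⟩ := TensorProduct.mk_surjective P _ _ hs x
  rw [TensorProduct.mk_apply] at hx ⊢
  rw [cotangentComplexBaseChange_tmul, one_smul, kerToTensor_apply] at hx
  have h1 := mem_sq_of_tmul hs (f := f) (by
    rw [← RingHom.mem_ker, hker, Ideal.mem_comap, RingHom.mem_ker.1 f.2]
    exact zero_mem _) hx
  have h2 := ker_inf_sq_le (algebraMap P O) hsurj t ht d hd f.2 (hker ▸ h1)
  have h3 : ∀ g ∈ (IsLocalRing.maximalIdeal O).comap (algebraMap P O) *
      RingHom.ker (algebraMap P O), ∃ h : g ∈ RingHom.ker (algebraMap P O),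
      (1 : IsLocalRing.ResidueField O) ⊗ₜ[P] (⟨g, h⟩ : RingHom.ker (algebraMap P O)) = 0 := by
    intro g hg
    refine Submodule.mul_induction_on hg (fun a ha b hb => ⟨Ideal.mul_mem_left _ a hb, ?_⟩) ?_
    · change (1 : IsLocalRing.ResidueField O) ⊗ₜ[P]
        (a • (⟨b, hb⟩ : RingHom.ker (algebraMap P O))) = 0
      rw [← TensorProduct.smul_tmul, Algebra.smul_def, RingHom.mem_ker.1 (hker ▸ ha), zero_mul,
        TensorProduct.zero_tmul]
    · rintro a b ⟨ha, ha'⟩ ⟨hb, hb'⟩
      refine ⟨add_mem ha hb, ?_⟩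
      change (1 : IsLocalRing.ResidueField O) ⊗ₜ[P]
        ((⟨a, ha⟩ : RingHom.ker (algebraMap P O)) + ⟨b, hb⟩) = 0
      rw [TensorProduct.tmul_add, ha', hb', add_zero]
  exact (h3 f h2).2

variable {k O F : Type} [Field k] [CommRing O] [IsDomain O] [IsLocalRing O] [Field F]
  [Algebra k O] [Algebra k F] [Algebra O F] [IsScalarTower k O F] [IsFractionRing O F]
  [Algebra.FormallySmooth k O] [Algebra.EssFiniteType k O] {n : ℕ}

theorem exists_dual_abs [IsNoetherianRing O] (b : Basis (Fin n) F Ω[F⁄k]) :
    ∃ (z : Fin n → O) (d : Fin n → Derivation k F F),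
      (∀ l (x : O), ∃ y : O, d l (algebraMap O F x) = algebraMap O F y) ∧
      ∀ l j, d l (algebraMap O F (z j)) = if l = j then 1 else 0 := by
  classical
  have : Module.FinitePresentation O Ω[O⁄k] := Module.finitePresentation_of_finite _ _
  obtain ⟨κ, a, e, he⟩ := Module.exists_basis_of_span_of_flat (D k O) (span_range_derivation k O)
  let e' := e.ofIsLocalizedModule F (nonZeroDivisors O) (KaehlerDifferential.map k k O F)
  let σ := b.indexEquiv e'
  have h1 : ∀ (x : O) i, e'.repr (D k F (algebraMap O F x)) i =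
      algebraMap O F (e.repr (D k O x) i) := fun x i => by
    rw [← map_D k k O F]
    exact e.ofIsLocalizedModule_repr_apply F _ _ _ i
  refine ⟨fun l => a (σ l), fun l => (e'.coord (σ l)).compDer (D k F),
    fun l x => ⟨_, h1 x (σ l)⟩, fun l j => (h1 _ (σ l)).trans ?_⟩
  rw [← he, e.repr_self, Finsupp.single_apply]
  by_cases h : l = j
  · simp [h]
  · simp [h, Ne.symm h]

theorem mem_sq_abs [CharZero k] {x : O} {c z : Fin n → O}
    (h : D k F (algebraMap O F x) = ∑ l, algebraMap O F (c l) • D k F (algebraMap O F (z l)))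
    (hx : x ∈ IsLocalRing.maximalIdeal O) (hc : ∀ l, c l ∈ IsLocalRing.maximalIdeal O) :
    x ∈ IsLocalRing.maximalIdeal O ^ 2 := by
  have h1 : Function.Injective (KaehlerDifferential.map k k O F) :=
    (IsLocalizedModule.injective_iff_isRegular (nonZeroDivisors O) _).2 fun c =>
      (IsRegular.of_ne_zero (nonZeroDivisors.coe_ne_zero c)).isSMulRegular
  have h2 : D k O x = ∑ l, c l • D k O (z l) := h1 (by
    rw [map_D, map_sum, h]
    exact Finset.sum_congr rfl fun l _ => by rw [map_smul, map_D, algebraMap_smul])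
  have := formallySmooth_residueField k O
  have h3 := mem_sq_of_tmul (k := k) (κ := IsLocalRing.ResidueField O)
    IsLocalRing.residue_surjective ((IsLocalRing.residue_eq_zero_iff x).2 hx) (by
      rw [h2, TensorProduct.tmul_sum]
      refine Finset.sum_eq_zero fun l _ => ?_
      rw [← TensorProduct.smul_tmul, Algebra.smul_def, IsLocalRing.ResidueField.algebraMap_eq,
        (IsLocalRing.residue_eq_zero_iff _).2 (hc l), zero_mul, TensorProduct.zero_tmul])
  rwa [IsLocalRing.ResidueField.algebraMap_eq, IsLocalRing.ker_residue] at h3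

end Abstract

variable {k F : Type} [Field k] [Field F] [Algebra k F]
variable {A O : Subalgebra k F} {V : ValuationSubring F}

/-- parameters with dual derivations give smoothness -/
theorem formallySmooth_of_coords [CharZero k] [Algebra.FiniteType k A] (hA : ∀ x ∈ A, x ∈ V)
    {c : ℕ} {t : Fin c → F} (h : Coords (lv A V) t) : Algebra.FormallySmooth k (lv A V) := by
  have := isPrime_ctr hA
  have := isLocalization_lv hA
  have := (dom_lv hA).isLocalRing
  obtain ⟨d, hd⟩ := h.exists_der
  exact formallySmooth_of_dual (ctr V A) h.el h.span_eq.symm d hd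

theorem formallySmooth_lv [Algebra.FormallySmooth k A] (hA : ∀ x ∈ A, x ∈ V) :
    Algebra.FormallySmooth k (lv A V) :=
  haveI := isPrime_ctr hA
  haveI := isLocalization_lv hA
  haveI := Algebra.FormallySmooth.of_isLocalization (Rₘ := lv A V) (ctr V A).primeCompl
  Algebra.FormallySmooth.comp k A _

theorem isFractionRing_of (hfr : ∀ x : F, ∃ a ∈ O, ∃ c ∈ O, c ≠ 0 ∧ x = a / c) :
    IsFractionRing O F :=
  IsFractionRing.of_field O F fun x => by
    obtain ⟨a, ha, c, hc, -, h⟩ := hfr x
    exact ⟨⟨a, ha⟩, ⟨c, hc⟩, h⟩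

variable {n : ℕ} {z : Fin n → F} {d : Fin n → Derivation k F F} {S : Finset (Fin n)}

theorem Dual.lift_sum (h : Dual O z d) (c : Fin n → F) (j : Fin n) :
    (d j).liftKaehlerDifferential (∑ l, c l • D k F (z l)) = c j := by
  simp [h.dual]

/-- differentials in a frame -/
theorem Dual.D_eq (b : Basis (Fin n) F Ω[F⁄k]) (h : Dual O z d) (x : F) :
    D k F x = ∑ l, d l x • D k F (z l) := by
  have h1 : LinearIndependent F fun l => D k F (z l) :=
    Fintype.linearIndependent_iff.2 fun c hc j => by rw [← h.lift_sum c j, hc, map_zero]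
  have := Module.Finite.of_basis b
  have h2 := h1.span_eq_top_of_card_eq_finrank' (finrank_eq_card_basis b).symm
  obtain ⟨c, hc⟩ := (Submodule.mem_span_range_iff_exists_fun F).1
    (h2 ▸ Submodule.mem_top : D k F x ∈ _)
  rw [← hc]
  refine Finset.sum_congr rfl fun l _ => ?_
  rw [← h.lift_sum c l, hc, Derivation.liftKaehlerDifferential_comp_D]

theorem Dual.der_eq (b : Basis (Fin n) F Ω[F⁄k]) (h : Dual O z d) (e : Derivation k F F) (x : F) :
    e x = ∑ l, d l x * e (z l) := by
  rw [← Derivation.liftKaehlerDifferential_comp_D, h.D_eq b x]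
  simp

theorem Dual.jac_eq (b : Basis (Fin n) F Ω[F⁄k]) (h : Dual O z d) (a : Fin n → F) :
    jac b a = (Matrix.of fun j l => d l (a j)).det * jac b z := by
  have h1 : (b.toMatrix fun j => D k F (a j)) =
      (b.toMatrix fun l => D k F (z l)) * (Matrix.of fun j l => d l (a j)).transpose := by
    ext i j
    rw [Basis.toMatrix_apply, h.D_eq b (a j), Matrix.mul_apply]
    simp [Basis.toMatrix_apply, mul_comm]
  rw [jac_eq_toMatrix, jac_eq_toMatrix, h1, Matrix.det_mul, Matrix.det_transpose, mul_comm]

theorem Fr.jac_ne (b : Basis (Fin n) F Ω[F⁄k]) (h : Fr O z) : jac b z ≠ 0 := by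
  obtain ⟨d, h⟩ := h
  have h1 : LinearIndependent F fun l => D k F (z l) :=
    Fintype.linearIndependent_iff.2 fun c hc j => by rw [← h.lift_sum c j, hc, map_zero]
  have := Module.Finite.of_basis b
  exact (b.is_basis_iff_det.1
    ⟨h1, h1.span_eq_top_of_card_eq_finrank' (finrank_eq_card_basis b).symm⟩).ne_zero

/-- the Jacobian of a frame generates the module of Jacobians -/
theorem Fr.jac_div_mem (b : Basis (Fin n) F Ω[F⁄k]) (h : Fr O z) {a : Fin n → F}
    (ha : ∀ l, a l ∈ O) : jac b a / jac b z ∈ O := by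
  have h0 := h.jac_ne b
  obtain ⟨d, h⟩ := h
  rw [h.jac_eq b a, mul_div_cancel_right₀ _ h0, Matrix.det_apply']
  exact sum_mem fun σ _ => mul_mem (intCast_mem _ _) (prod_mem fun i _ => h.pres _ _ (ha _))

theorem jac_blow (b : Basis (Fin n) F Ω[F⁄k]) {l₀ l₁ : Fin n} (hl : l₀ ≠ l₁) (h0 : z l₀ ≠ 0) :
    jac b z = z l₀ * jac b (Function.update z l₁ (z l₁ / z l₀)) := by
  have h1 : ∀ f, jac b (Function.update z l₁ f) =
      b.det (Function.update (fun l => D k F (z l)) l₁ (D k F f)) := fun f => by
    rw [jac, ← Function.comp_def, Function.comp_update]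
    rfl
  conv_lhs => rw [← Function.update_eq_self l₁ z, ← mul_div_cancel₀ (z l₁) h0]
  rw [h1, h1, Derivation.leibniz, AlternatingMap.map_update_add, AlternatingMap.map_update_smul,
    AlternatingMap.map_update_smul,
    AlternatingMap.map_update_self b.det (fun l => D k F (z l)) hl.symm, smul_zero, add_zero,
    smul_eq_mul]

section Smooth

variable [IsLocalRing O] [Algebra.FormallySmooth k O] [Algebra.EssFiniteType k O]
  [IsFractionRing O F] (b : Basis (Fin n) F Ω[F⁄k])

include b in
/-- a smooth local ring has a frame -/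
theorem exists_fr [IsNoetherianRing O] : ∃ z : Fin n → F, Fr O z := by
  obtain ⟨z, d, h1, h2⟩ := exists_dual_abs (O := O) b
  refine ⟨fun l => z l, d, fun l => (z l).2, fun l x hx => ?_, h2⟩
  obtain ⟨y, hy⟩ := h1 l ⟨x, hx⟩
  exact (show d l x = y from hy) ▸ y.2

variable [CharZero k]

include b in
/-- a function with vanishing value and derivatives vanishes to second order -/
theorem Dual.mem_sq (h : Dual O z d) {x : O} (hx : Van O x) (hd : ∀ l, Van O (d l x)) :
    x ∈ IsLocalRing.maximalIdeal O ^ 2 :=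
  mem_sq_abs (F := F) (c := fun l => ⟨d l x, h.pres l x x.2⟩) (z := fun l => ⟨z l, h.mem l⟩)
    (h.D_eq b x) ((van_iff_mem_max x).1 hx) fun l => (van_iff_mem_max _).1 (hd l)

variable [IsNoetherianRing O]

include b in
theorem Dual.reg (h : Dual O z d) (hS : ∀ l ∈ S, Van O (z l))
    (hd : ∀ x, Van O x → ∀ l ∉ S, Van O (d l x)) : Reg O z S := by
  let J : Ideal O := Ideal.span ((fun l => (⟨z l, h.mem l⟩ : O)) '' S)
  have h1 : IsLocalRing.maximalIdeal O ≤ J := by
    refine Submodule.le_of_le_smul_of_le_jacobson_bot (IsNoetherian.noetherian _)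
      (IsLocalRing.maximalIdeal_le_jacobson _) fun x hx => ?_
    have hx' := (van_iff_mem_max x).2 hx
    let y : O := ∑ l ∈ S, ⟨d l x, h.pres l x x.2⟩ * ⟨z l, h.mem l⟩
    have hy : (y : F) = ∑ l ∈ S, d l x * z l := by simp [y]
    have h2 : y ∈ J := Ideal.sum_mem _ fun l hl =>
      Ideal.mul_mem_left _ _ (Ideal.subset_span ⟨l, hl, rfl⟩)
    have h3 : x - y ∈ IsLocalRing.maximalIdeal O ^ 2 := by
      refine h.mem_sq b ((van_iff_mem_max _).2 (sub_mem hx (Ideal.sum_mem _ fun l hl =>
        Ideal.mul_mem_left _ _ ((van_iff_mem_max _).1 (hS l hl))))) fun j => ?_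
      have h4 : d j ((x - y : O) : F) =
          (if j ∈ S then 0 else d j x) + ∑ l ∈ S, (-d j (d l x)) * z l := by
        rw [AddSubgroupClass.coe_sub, hy, map_sub, map_sum]
        simp only [Derivation.leibniz, smul_eq_mul, h.dual, Finset.sum_add_distrib, mul_ite,
          mul_one, mul_zero, Finset.sum_ite_eq, neg_mul, Finset.sum_neg_distrib, mul_comm (z _)]
        split_ifs <;> ring
      rw [h4]
      refine Van.add ?_ (Van.sum _ fun l hl =>
        Van.mul_left (neg_mem (h.pres j _ (h.pres l x x.2))) (hS l hl))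
      split_ifs with hj
      · exact van_zero
      · exact hd x hx' j hj
    rw [← add_sub_cancel y x]
    exact Submodule.add_mem_sup h2 (by rwa [smul_eq_mul, ← pow_two])
  refine ⟨⟨d, h⟩, hS, fun x hx => ?_⟩
  have h2 := Submodule.apply_mem_span_image_of_mem_span (Algebra.linearMap O F)
    (h1 ((van_iff_mem_max ⟨x, hx.1⟩).1 hx))
  rwa [← Set.image_comp] at h2

include b in
/-- a frame can be changed to a regular system of coordinates -/
theorem Fr.exists_reg (h : Fr O z) (hS : ∀ l ∈ S, Van O (z l)) :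
    ∃ z' S', S ⊆ S' ∧ (∀ l ∈ S, z' l = z l) ∧ Reg O z' S' := by
  induction hN : Sᶜ.card using Nat.strong_induction_on generalizing z S with
  | _ N ih =>
    obtain ⟨d, h⟩ := h
    by_cases hd : ∀ x, Van O x → ∀ l ∉ S, Van O (d l x)
    · exact ⟨z, S, subset_rfl, fun _ _ => rfl, h.reg b hS hd⟩
    push Not at hd
    obtain ⟨x, hx, l, hl, hd⟩ := hd
    have h1 : Un O (d l x) := not_not.1 fun h1 => hd ⟨h.pres l x hx.1, h1⟩
    obtain ⟨z', S', h2, h3, h4⟩ := ih _ (by
      rw [← hN]
      exact Finset.card_lt_card (Finset.compl_ssubset_compl.2 (Finset.ssubset_insert hl)))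
      (h.exch hx.1 h1) (S := insert l S) (fun j hj => by
        by_cases e : j = l
        · rwa [e, Function.update_self]
        · rw [Function.update_of_ne e]
          exact hS j ((Finset.mem_insert.1 hj).resolve_left e)) rfl
    exact ⟨z', S', (Finset.subset_insert _ _).trans h2, fun j hj => by
      rw [h3 j (Finset.mem_insert_of_mem hj), Function.update_of_ne fun e : j = l => hl (e ▸ hj)],
      h4⟩

include b in
/-- **a smooth local ring has coordinates** -/
theorem exists_reg : ∃ (z : Fin n → F) (S : Finset (Fin n)), Reg O z S := by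
  obtain ⟨z, h⟩ := exists_fr (O := O) b
  obtain ⟨z', S', -, -, h1⟩ := h.exists_reg b (S := ∅) (by simp)
  exact ⟨z', S', h1⟩

end Smooth

/-- parameters are part of a frame -/
theorem Fr.exists_reg_of_coords [IsLocalRing O] (b : Basis (Fin n) F Ω[F⁄k]) (h : Fr O z) {c : ℕ}
    {t : Fin c → F} (ht : Coords O t) : ∃ (z' : Fin n → F) (σ : Fin c → Fin n),
      Function.Injective σ ∧ z' ∘ σ = t ∧ Reg O z' (Finset.univ.image σ) := by
  obtain ⟨e, he, he'⟩ := ht.der
  have key : ∀ T : Finset (Fin c), ∃ z' : Fin n → F, Fr O z' ∧ ∀ j ∈ T, ∃ l, z' l = t j := by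
    intro T
    induction T using Finset.induction_on with
    | empty => exact ⟨z, h, by simp⟩
    | insert j T hj ih =>
      obtain ⟨z', ⟨d, hd⟩, h1⟩ := ih
      obtain ⟨l, hl⟩ : ∃ l, ¬ Van O (d l (t j) * e j (z' l)) := by
        by_contra hc
        push Not at hc
        have h2 := Van.sum Finset.univ fun l _ => hc l
        rw [← hd.der_eq b, he', if_pos rfl] at h2
        exact h2.2 un_one
      have h2 : Un O (d l (t j) * e j (z' l)) := not_not.1 fun h2 =>
        hl ⟨mul_mem (hd.pres l _ (ht.mem j)) (he j _ (hd.mem l)), h2⟩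
      refine ⟨_, hd.exch (ht.mem j) (h2.of_mul (hd.pres l _ (ht.mem j)) (he j _ (hd.mem l))),
        fun i hi => ?_⟩
      rcases Finset.mem_insert.1 hi with rfl | hi
      · exact ⟨l, Function.update_self _ _ _⟩
      · obtain ⟨l', hl'⟩ := h1 i hi
        refine ⟨l', (Function.update_of_ne (fun e' : l' = l => h2.1 ?_) _ _).trans hl'⟩
        rw [← e', hl', he', if_neg fun e'' : j = i => hj (e'' ▸ hi), mul_zero]
  obtain ⟨z', h1, h2⟩ := key Finset.univ
  choose σ hσ using fun j => h2 j (Finset.mem_univ j)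
  have h3 : z' ∘ σ = t := funext hσ
  refine ⟨z', σ, fun i j hij => ?_, h3, h1, fun l hl => ?_, fun x hx => ?_⟩
  · by_contra hne
    have h4 := he' i j
    rw [← hσ j, ← hij, hσ, he', if_pos rfl, if_neg hne] at h4
    exact one_ne_zero h4
  · obtain ⟨j, -, rfl⟩ := Finset.mem_image.1 hl
    exact hσ j ▸ ht.van j
  · rw [Finset.coe_image, Finset.coe_univ, Set.image_univ, ← Set.range_comp, h3]
    exact coords_span ht hx

end Crest.Agent.X262.Qt
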