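import Crest.Agent.X262.Qt.Step
import Crest.Agent.X262.Qt.Sm

/-!
# Row 262, QT (helper42), part 4: Jacobians along a valuation

* `Dv k V`   : `V` is discrete and a localisation of an algebra of finite type;
* `FrV k V z`: `z` is a frame of the valuation ring `V`;
* `Reg.val_lt` : a regular local ring which is strictly dominated has positive discrepancy;
* `Last.val_lt` : two steps; `Last.val_le_pow` : `ord_O` is the smallest valuation over `O`.
-/

set_option autoImplicit false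

noncomputable section

namespace Crest.Agent.X262.Qt

open Crest.Agent.X277.Res.Out Crest.Agent.X277.Res.Out.Lb Crest.Agent.X277.Lef Polynomial Module
open scoped KaehlerDifferential

variable {k F : Type} [Field k] [Field F] [Algebra k F]

variable (k) in
/-- `V` is discrete and a localisation of an algebra of finite type -/
def Dv (V : ValuationSubring F) : Prop :=
  (∃ ϖ, Unif V ϖ) ∧ ∃ B : Subalgebra k F, B.FG ∧ Cen V B

variable (k) in
/-- a frame of a valuation ring -/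
def FrV (V : ValuationSubring F) {n : ℕ} (z : Fin n → F) : Prop :=
  ∃ O : Subalgebra k F, Cen V O ∧ Fr O z

variable {O O' : Subalgebra k F} {V W : ValuationSubring F} {n : ℕ} {z z' a : Fin n → F}
  {S : Finset (Fin n)} {l₀ l₁ : Fin n} {u : F} (b : Basis (Fin n) F Ω[F⁄k])

theorem Fr.val_le (h : Fr O z) (hO : ∀ x ∈ O, x ∈ V) (ha : ∀ l, a l ∈ Qt.lv O V) :
    V.valuation (jac b a) ≤ V.valuation (jac b z) := by
  have h1 := Lb.val_le (lv_le hO _ ((h.lv V).jac_div_mem b ha))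
  rwa [map_div₀, div_le_one₀ (val_pos (h.jac_ne b))] at h1

theorem Fr.val_eq (h : Fr O z) (h' : Fr O z') (hO : ∀ x ∈ O, x ∈ V) :
    V.valuation (jac b z) = V.valuation (jac b z') :=
  le_antisymm (h'.val_le b hO fun l => le_lv _ _ (h.mem l))
    (h.val_le b hO fun l => le_lv _ _ (h'.mem l))

theorem FrV.mem (h : FrV k V z) (l : Fin n) : z l ∈ V := by
  obtain ⟨O, h1, h2⟩ := h
  exact h1.le _ (h2.mem l)

theorem FrV.jac_ne (h : FrV k V z) : jac b z ≠ 0 := h.choose_spec.2.jac_ne b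

theorem FrV.val_le (h : FrV k V z) (ha : ∀ l, a l ∈ V) :
    V.valuation (jac b a) ≤ V.valuation (jac b z) := by
  obtain ⟨O, h1, h2⟩ := h
  exact h2.val_le b h1.le fun l => h1.loc _ (ha l)

theorem FrV.val_eq (h : FrV k V z) (h' : FrV k V z') :
    V.valuation (jac b z) = V.valuation (jac b z') :=
  le_antisymm (h'.val_le b h.mem) (h.val_le b h'.mem)

theorem Last.frV (h : Last O V z l₀ l₁) : FrV k V (Function.update z l₁ (z l₁ / z l₀)) :=
  ⟨_, h.cen, h.reg.fr.blow h.ne⟩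

theorem Last.lt₀ (h : Last O V z l₀ l₁) : V.valuation (z l₀) < 1 :=
  h.dom.lt (h.reg.van l₀ (by simp))

theorem Last.not_le (h : Last O V z l₀ l₁) (hW : ∀ x ∈ W, x ∈ O) : False :=
  h.ne (h.reg.eq_of_val hW (by simp) (by simp))

theorem cen_of_le (h : ∀ x ∈ O, x ∈ V) (h' : ∀ x ∈ V, x ∈ O) : Cen V O :=
  ⟨h, fun x hx => le_lv O V (h' x hx)⟩

theorem frac_mono (h : O ≤ O') (hfr : ∀ x : F, ∃ a ∈ O, ∃ c ∈ O, c ≠ 0 ∧ x = a / c) (x : F) :
    ∃ a ∈ O', ∃ c ∈ O', c ≠ 0 ∧ x = a / c := by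
  obtain ⟨a, ha, c, hc, h1⟩ := hfr x
  exact ⟨a, h ha, c, h hc, h1⟩

section Key

variable [CharZero k] (hW : Dv k V) (hV : Dom V O)
  (hfr : ∀ x : F, ∃ a ∈ O, ∃ c ∈ O, c ≠ 0 ∧ x = a / c)
include hW hV hfr

theorem Reg.good' (h : Reg O z S) : Good n O V := by
  obtain ⟨⟨ϖ, hϖ⟩, B, hB, hc⟩ := hW
  exact h.good hϖ hB hc hV hfr

theorem Reg.exists_lt (h : Reg O z S) (hn : ¬ ∀ x ∈ V, x ∈ O) :
    ∃ z', FrV k V z' ∧ V.valuation (jac b z) < V.valuation (jac b z') := by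
  obtain ⟨U, -, y, l₀, l₁, hy⟩ := (h.good' hW hV hfr).resolve_left hn
  refine ⟨_, hy.frV, (hy.reg.fr.val_le b hy.dom.le fun l =>
    le_lv _ _ (le_lv _ _ (le_adj _ _ (h.fr.mem l)))).trans_lt ?_⟩
  rw [jac_blow b hy.ne (hy.reg.fr.ne_zero l₀), map_mul]
  exact mul_lt_of_lt_one_left (val_pos (hy.frV.jac_ne b)) hy.lt₀

include b in
theorem Reg.exists_frV (h : Reg O z S) : ∃ z' : Fin n → F, FrV k V z' := by
  by_cases hn : ∀ x ∈ V, x ∈ O
  · exact ⟨z, O, cen_of_le hV.le hn, h.fr⟩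
  · exact (h.exists_lt b hW hV hfr hn).imp fun _ h => h.1

/-- **positive discrepancy** -/
theorem Reg.val_lt (h : Reg O z S) (hn : ¬ ∀ x ∈ V, x ∈ O) (hz : FrV k V z') :
    V.valuation (jac b z) < V.valuation (jac b z') := by
  obtain ⟨y, h1, h2⟩ := h.exists_lt b hW hV hfr hn
  exact h2.trans_le (hz.val_le b h1.mem)

theorem Reg.two (h : Reg O z S) (h₀ : l₀ ∈ S) (hl : l₀ ≠ l₁) (hu : z l₁ / z l₀ ∈ V)
    (hz : FrV k V z') : (Tr O V (z l₁ / z l₀) ∧ Cen V (adj O {z l₁ / z l₀})) ∨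
      V.valuation (jac b z) < V.valuation (z l₀ * jac b z') := by
  have hA : ∀ x ∈ adj O {z l₁ / z l₀}, x ∈ V := adj_le_val hV.le (by rintro _ rfl; exact hu)
  have h1 := (h.fr.blow hl).lv V
  by_cases hn : ∀ x ∈ V, x ∈ lv (adj O {z l₁ / z l₀}) V
  · refine Or.inl ⟨?_, cen_iff.2 ⟨hA, hn⟩⟩
    rcases h.step hV h₀ hl hu with h2 | ⟨f, h2⟩
    · exact h2.1
    · exact absurd (h2.eq_of_val hn (Finset.mem_insert_of_mem h₀) (Finset.mem_insert_self _ _)) hl
  · have h3 : ∃ y S', Reg (lv (adj O {z l₁ / z l₀}) V) (n := n) y S' := by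
      rcases h.step hV h₀ hl hu with h2 | ⟨f, h2⟩
      exacts [⟨_, _, h2.2⟩, ⟨_, _, h2⟩]
    obtain ⟨y, S', h3⟩ := h3
    right
    rw [jac_blow b hl (h.fr.ne_zero l₀), map_mul, map_mul, h1.val_eq b h3.fr (lv_le hA)]
    exact mul_lt_mul_of_pos_left (h3.val_lt b hW (dom_lv hA)
      (frac_mono ((le_adj _ _).trans (le_lv _ _)) hfr) hn hz) (val_pos (h.fr.ne_zero l₀))

end Key

theorem val_aeval_le {γ : V.ValueGroup} (hu : u ∈ V) {q : O[X]}
    (hq : ∀ i, V.valuation (q.coeff i : F) ≤ γ) : V.valuation (aeval u q) ≤ γ := by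
  rw [aeval_eq_sum]
  refine V.valuation.map_sum_le fun i _ => ?_
  rw [map_mul]
  exact (mul_le_of_le_one_right' (val_le (pow_mem hu i))).trans (hq i)

theorem val_aeval_lt (hu : u ∈ V) {q : O[X]} (hq : ∀ i, V.valuation (q.coeff i : F) < 1) :
    V.valuation (aeval u q) < 1 := by
  rw [aeval_eq_sum]
  exact V.valuation.map_sum_lt one_ne_zero fun i _ => val_mul_lt (hq i) (pow_mem hu i)

theorem Tr.not_lt (h : Tr O V u) : ¬ V.valuation u < 1 := fun h1 => by
  simpa using h X (by simpa using h1) 1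

theorem le_of_tr (hV : Dom V O) (hW : Dom W O) (h : Tr O W u) (h1 : Cen V (adj O {u}))
    (h2 : u ∈ W) : V ≤ W := by
  have h3 : ∀ x ∈ adj O {u}, x ∈ W := adj_le_val hW.le (by rintro _ rfl; exact h2)
  refine h1.le_of_ctr h3 fun a ha => (mem_ctr h1.le).2 ?_
  obtain ⟨q, hq⟩ := exists_aeval a.2
  have h4 := (mem_ctr h3).1 ha
  rw [← hq] at h4 ⊢
  exact val_aeval_lt (h1.le u (mem_adj rfl)) fun i => hV.lt (hW.van (q.coeff i).2 (h q h4 i))

namespace Last

variable (h : Last O V z l₀ l₁)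
include h

theorem mem : z l₁ / z l₀ ∈ V := h.cen.le _ (mem_adj rfl)

/-- two steps -/
theorem val_lt [CharZero k] (hW : Dv k W) (hd : Dom W O)
    (hfr : ∀ x : F, ∃ a ∈ O, ∃ c ∈ O, c ≠ 0 ∧ x = a / c) (hne : W ≠ V) (hz : FrV k W z') :
    ∃ x, x ≠ 0 ∧ W.valuation x < 1 ∧ W.valuation (jac b z) < W.valuation (x * jac b z') := by
  by_cases hu : z l₁ / z l₀ ∈ W
  · refine ⟨z l₀, h.reg.fr.ne_zero _, hd.lt (h.reg.van _ (by simp)),
      (h.reg.two b hW hd hfr (by simp) h.ne hu hz).resolve_left fun h1 => hne ?_⟩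
    exact le_antisymm (le_of_tr hd h.dom h.tr h1.2 h.mem) (le_of_tr h.dom hd h1.1 h.cen hu)
  · have h1 : W.valuation (z l₀ / z l₁) < 1 := val_lt_one (by rwa [inv_div])
    exact ⟨z l₁, h.reg.fr.ne_zero _, hd.lt (h.reg.van _ (by simp)),
      (h.reg.two b hW hd hfr (by simp) h.ne.symm ((W.valuation_le_one_iff _).1 h1.le)
        hz).resolve_left fun h2 => h2.1.not_lt h1⟩

theorem exists_pair {c : F} (hc : Van O c) : ∃ s t : O, c = s * z l₀ + t * z l₁ := by
  have h1 := h.reg.gen c hc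
  rw [Finset.coe_pair, Set.image_pair, Submodule.mem_span_pair] at h1
  obtain ⟨s, t, h1⟩ := h1
  exact ⟨s, t, h1.symm⟩

theorem exists_div {q : O[X]} (hq : V.valuation (aeval (z l₁ / z l₀) q) < 1) :
    ∃ p : O[X], p.natDegree ≤ q.natDegree + 1 ∧
      aeval (z l₁ / z l₀) q = z l₀ * aeval (z l₁ / z l₀) p := by
  choose s t hst using fun i => h.exists_pair (h.dom.van (q.coeff i).2 (h.tr q hq i))
  have h0 := h.reg.fr.ne_zero l₀
  refine ⟨∑ i ∈ Finset.range (q.natDegree + 1), (monomial i (s i) + monomial (i + 1) (t i)),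
    natDegree_sum_le_of_forall_le _ _ fun i hi => natDegree_add_le_of_degree_le
      ((natDegree_monomial_le _).trans (Finset.mem_range.1 hi).le)
      ((natDegree_monomial_le _).trans (Finset.mem_range.1 hi)), ?_⟩
  rw [aeval_eq_sum, map_sum, Finset.mul_sum]
  refine Finset.sum_congr rfl fun i _ => ?_
  rw [map_add, aeval_monomial, aeval_monomial, hst i, pow_succ]
  change _ = z l₀ * ((s i : F) * _ + (t i : F) * _)
  field_simp

/-- the first parameter is a uniformiser -/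
theorem le_of_lt {f : F} (hf : V.valuation f < 1) : V.valuation f ≤ V.valuation (z l₀) := by
  obtain ⟨c, -, h1, h2⟩ := h.cen.loc f ((V.valuation_le_one_iff _).1 hf.le)
  obtain ⟨q, hq⟩ := exists_aeval h2
  have h3 : V.valuation (aeval (z l₁ / z l₀) q) = V.valuation f := by rw [hq, map_mul, h1, one_mul]
  obtain ⟨p, -, hp⟩ := h.exists_div (h3 ▸ hf)
  rw [← h3, hp, map_mul]
  exact mul_le_of_le_one_right' (val_le (h.cen.le _ (aeval_mem_adj p _)))

theorem exists_poly {f : F} (hf : f ∈ O) (m : ℕ) (hm : V.valuation f ≤ V.valuation (z l₀) ^ m) :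
    ∃ q : O[X], q.natDegree ≤ m ∧ f = z l₀ ^ m * aeval (z l₁ / z l₀) q := by
  induction m with
  | zero => exact ⟨C ⟨f, hf⟩, by simp, by simp⟩
  | succ m ih =>
    obtain ⟨q, h1, h2⟩ := ih (hm.trans (pow_le_pow_right_of_le_one' h.lt₀.le m.le_succ))
    rw [h2, map_mul, map_pow, pow_succ,
      mul_le_mul_iff_right₀ (pow_pos (val_pos (h.reg.fr.ne_zero l₀)) m)] at hm
    obtain ⟨p, h3, h4⟩ := h.exists_div (hm.trans_lt h.lt₀)
    exact ⟨p, h3.trans (Nat.succ_le_succ h1), by rw [h2, h4, pow_succ, mul_assoc]⟩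

/-- `ord_O` is the smallest valuation over `O` -/
theorem val_le_pow (hW : ∀ x ∈ O, x ∈ W) {γ : W.ValueGroup} (h0 : W.valuation (z l₀) ≤ γ)
    (h1 : W.valuation (z l₁) ≤ γ) {f : F} (hf : f ∈ O) {m : ℕ}
    (hm : V.valuation f ≤ V.valuation (z l₀) ^ m) : W.valuation f ≤ γ ^ m := by
  obtain ⟨q, h2, rfl⟩ := h.exists_poly hf m hm
  rw [aeval_eq_sum, Finset.mul_sum]
  refine W.valuation.map_sum_le fun i hi => ?_
  obtain ⟨j, rfl⟩ := Nat.exists_eq_add_of_le ((Nat.le_of_lt_succ (Finset.mem_range.1 hi)).trans h2)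
  have h3 := h.reg.fr.ne_zero l₀
  rw [show z l₀ ^ (i + j) * ((q.coeff i : F) * (z l₁ / z l₀) ^ i) =
    q.coeff i * (z l₁ ^ i * z l₀ ^ j) by rw [div_pow, pow_add]; field_simp, map_mul, map_mul,
    map_pow, map_pow, pow_add]
  exact (mul_le_of_le_one_left' (val_le (hW _ (q.coeff i).2))).trans
    (mul_le_mul' (pow_le_pow_left' h1 i) (pow_le_pow_left' h0 j))

end Last

end Crest.Agent.X262.Qt
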