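import Crest.Agent.X262.Qt.Loc

/-!
# Row 262, QT (helper42), part 1: blowing up two parameters along a valuation

* `Reg.step` : `O [y / x]` localised at the centre of `V` is again regular;
* `Good`, `Reg.good` : after finitely many steps one reaches a discrete valuation ring `V` which
  is a localisation of a finitely generated algebra; the last ring has dimension two.
-/

set_option autoImplicit false

noncomputable section

namespace Crest.Agent.X262.Qt

open Crest.Agent.X277.Res.Out Crest.Agent.X277.Res.Out.Lb Polynomial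

variable {k F : Type} [Field k] [Field F] [Algebra k F]
variable {O : Subalgebra k F} {V : ValuationSubring F} {u : F}

theorem val_mul_lt {x y : F} (hx : V.valuation x < 1) (hy : y ∈ V) : V.valuation (x * y) < 1 := by
  rw [map_mul]
  exact mul_lt_one_of_nonneg_of_lt_one_left zero_le hx (val_le hy)

theorem aeval_eq_sum (q : O[X]) (u : F) :
    aeval u q = ∑ i ∈ Finset.range (q.natDegree + 1), (q.coeff i : F) * u ^ i := by
  rw [aeval_eq_sum_range]
  exact Finset.sum_congr rfl fun i _ => Algebra.smul_def _ _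

/-- below the degree of the minimal equation there is no relation -/
theorem coeff_lt (h : Dom V O) (hu : u ∈ V) (N : ℕ)
    (hmin : ∀ p : O[X], p.Monic → p.natDegree < N → ¬ V.valuation (aeval u p) < 1) :
    ∀ q : O[X], q.degree < N → V.valuation (aeval u q) < 1 →
      ∀ i, V.valuation (q.coeff i : F) < 1 := by
  induction N with
  | zero =>
    intro q hq _ i
    rw [Nat.cast_zero, Nat.WithBot.lt_zero_iff, degree_eq_bot] at hq
    simp [hq]
  | succ N ih =>
    intro q hq hv
    have hq' : q.degree ≤ N := by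
      rw [degree_le_iff_coeff_zero]
      exact fun m hm => coeff_eq_zero_of_degree_lt
        (hq.trans_le (by exact_mod_cast Nat.succ_le_of_lt (by exact_mod_cast hm)))
    have hc : V.valuation (q.coeff N : F) < 1 := by
      by_contra hc
      have h1 : V.valuation (q.coeff N : F) = 1 :=
        le_antisymm (val_le (h.le _ (q.coeff N).2)) (not_lt.1 hc)
      let c : O := ⟨_, h.inv _ (q.coeff N).2 h1⟩
      have h2 : c * q.coeff N = 1 := Subtype.ext (inv_mul_cancel₀ (ne_of_val h1))
      have h3 : (C c * q).natDegree ≤ N :=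
        (natDegree_C_mul_le c q).trans (natDegree_le_iff_degree_le.2 hq')
      refine hmin (C c * q) (monic_of_natDegree_le_of_coeff_eq_one N h3 (by rw [coeff_C_mul, h2]))
        (Nat.lt_succ_of_le h3) ?_
      rw [map_mul, aeval_C, mul_comm]
      exact val_mul_lt hv (h.le _ c.2)
    have h4 := ih (fun p hp hN => hmin p hp (Nat.lt_succ_of_lt hN))
      (q - monomial N (q.coeff N)) ?_ ?_
    · intro i
      by_cases hi : N = i
      · rwa [← hi]
      · simpa [coeff_monomial, hi] using h4 i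
    · rw [degree_lt_iff_coeff_zero]
      intro m hm
      rw [coeff_sub, coeff_monomial]
      split_ifs with h5
      · rw [h5, sub_self]
      · rw [sub_zero]
        exact coeff_eq_zero_of_degree_lt (hq'.trans_lt (by exact_mod_cast lt_of_le_of_ne hm h5))
    · rw [map_sub, aeval_monomial]
      exact V.valuation.map_sub_lt hv (val_mul_lt hc (pow_mem hu N))

/-- the residue of `u` is transcendental, or has a separable minimal equation -/
theorem tr_or [CharZero k] (h : Dom V O) (hu : u ∈ V) : Tr O V u ∨ ∃ p : O[X],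
    V.valuation (aeval u p) < 1 ∧ V.valuation (aeval u (derivative p)) = 1 ∧
    ∀ q : O[X], V.valuation (aeval u q) < 1 → ∃ a r : O[X], q = r + p * a ∧
      ∀ i, V.valuation (r.coeff i : F) < 1 := by
  classical
  by_cases hex : ∃ N, ∃ p : O[X], p.Monic ∧ p.natDegree = N ∧ V.valuation (aeval u p) < 1
  · right
    obtain ⟨p, hp, hN, hv⟩ := Nat.find_spec hex
    have hmin := coeff_lt h hu (Nat.find hex) fun q hq hd hv' =>
      Nat.find_min hex hd ⟨q, hq, rfl, hv'⟩
    have hdeg : p.degree = Nat.find hex := by rw [degree_eq_natDegree hp.ne_zero, hN]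
    have hadj : ∀ q : O[X], aeval u q ∈ V := fun q =>
      adj_le_val h.le (by rintro _ rfl; exact hu) _ (aeval_mem_adj q u)
    refine ⟨p, hv, ?_, fun q hq => ⟨q /ₘ p, q %ₘ p, (modByMonic_add_div q p).symm, ?_⟩⟩
    · refine le_antisymm (val_le (hadj _)) (not_lt.1 fun hlt => ?_)
      obtain ⟨d, hd⟩ : ∃ d, p.natDegree = d + 1 := by
        refine Nat.exists_eq_succ_of_ne_zero fun h0 => ?_
        rw [hp.natDegree_eq_zero.1 h0, map_one, map_one] at hv
        exact lt_irrefl _ hv
      have h1 := hmin _ (hdeg ▸ degree_derivative_lt hp.ne_zero) hlt d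
      rw [coeff_derivative, ← hd, hp.coeff_natDegree, one_mul] at h1
      have h2 : (((d : O) + 1 : O) : F) = algebraMap k F ((d : k) + 1) := by simp
      have h3 : (d : k) + 1 ≠ 0 := Nat.cast_add_one_ne_zero d
      rw [h2, val_eq_one ((_root_.map_ne_zero _).2 h3) (h.le _ (O.algebraMap_mem _))
        (by rw [← map_inv₀]; exact h.le _ (O.algebraMap_mem _))] at h1
      exact lt_irrefl _ h1
    · refine hmin _ (hdeg ▸ degree_modByMonic_lt q hp) ?_
      rw [eq_sub_of_add_eq (modByMonic_add_div q p), map_sub, map_mul]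
      exact V.valuation.map_sub_lt hq (val_mul_lt hv (hadj _))
  · exact Or.inl fun q => coeff_lt h hu (q.natDegree + 1) (fun p hp _ hv => hex ⟨_, p, hp, rfl, hv⟩)
      q (degree_le_natDegree.trans_lt (by exact_mod_cast Nat.lt_succ_self _))

theorem val_der_aeval {D : Derivation k F F} (hu : u ∈ V) (hD : ∀ c ∈ O, V.valuation (D c) < 1)
    (q : O[X]) : V.valuation (D (aeval u q) - aeval u (derivative q) * D u) < 1 := by
  induction q using Polynomial.induction_on' with
  | add p q hp hq =>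
    have h1 := V.valuation.map_add_lt hp hq
    rw [map_add, map_add, map_add, map_add]
    convert h1 using 2
    ring
  | monomial m c =>
    rw [derivative_monomial, aeval_monomial, aeval_monomial, Derivation.leibniz,
      Derivation.leibniz_pow]
    have h1 := val_mul_lt (hD c c.2) (pow_mem hu m)
    convert h1 using 2
    simp only [map_mul, map_natCast, smul_eq_mul, nsmul_eq_mul, Subalgebra.algebraMap_apply]
    ring

variable {n : ℕ} {z : Fin n → F} {S : Finset (Fin n)}

/-- two frames with the same coordinates have the same derivations on the fraction field; here we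
only need the derivation dual to `y / x` -/
theorem exists_blow_der (h : Fr O z) {l₀ l₁ : Fin n} (hl : l₀ ≠ l₁) :
    ∃ d, Dual (adj O {z l₁ / z l₀}) (Function.update z l₁ (z l₁ / z l₀)) d ∧
      ∀ c ∈ O, d l₁ c / z l₀ ∈ O := by
  have h0 := h.ne_zero l₀
  obtain ⟨D, hD⟩ := h.blow hl
  obtain ⟨d, h⟩ := h
  have h1 : ∀ j, (z l₀ • d l₁) (Function.update z l₁ (z l₁ / z l₀) j) = if l₁ = j then 1 else 0 := by
    intro j
    by_cases hj : j = l₁
    · rw [hj, Function.update_self, Derivation.smul_apply, Derivation.leibniz_div, h.self,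
        h.of_ne hl.symm, if_pos rfl]
      simp only [smul_eq_mul]
      field_simp
      simp
    · rw [Function.update_of_ne hj, Derivation.smul_apply, h.of_ne (Ne.symm hj), smul_zero,
        if_neg (Ne.symm hj)]
  refine ⟨Function.update D l₁ (z l₀ • d l₁), ⟨hD.mem, fun l => ?_, fun l j => ?_⟩, fun c hc => ?_⟩
  · by_cases hj : l = l₁
    · rw [hj, Function.update_self]
      refine der_adj (fun x hx => le_adj _ _ (mul_mem (h.mem l₀) (h.pres l₁ x hx))) ?_
      rintro _ rfl
      have h2 := h1 l₁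
      rw [Function.update_self, if_pos rfl] at h2
      rw [h2]
      exact one_mem _
    · rw [Function.update_of_ne hj]
      exact hD.pres l
  · by_cases hj : l = l₁
    · rw [hj, Function.update_self, h1]
    · rw [Function.update_of_ne hj, hD.dual]
  · rw [Function.update_self, Derivation.smul_apply, smul_eq_mul, mul_div_cancel_left₀ _ h0]
    exact h.pres l₁ c hc

/-- **one step** -/
theorem Reg.step [CharZero k] (hV : Dom V O) (h : Reg O z S) {l₀ l₁ : Fin n} (h₀ : l₀ ∈ S)
    (hl : l₀ ≠ l₁) (hu : z l₁ / z l₀ ∈ V) :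
    (Tr O V (z l₁ / z l₀) ∧ Reg (lv (adj O {z l₁ / z l₀}) V)
      (Function.update z l₁ (z l₁ / z l₀)) (S.erase l₁)) ∨
    ∃ f, Reg (lv (adj O {z l₁ / z l₀}) V) (Function.update z l₁ f) (insert l₁ S) := by
  set u := z l₁ / z l₀ with hu'
  have hA : ∀ x ∈ adj O {u}, x ∈ V := adj_le_val hV.le (by rintro _ rfl; exact hu)
  have hV1 := dom_lv hA
  have hO : O ≤ lv (adj O {u}) V := (le_adj _ _).trans (le_lv _ _)
  have hu1 : u ∈ lv (adj O {u}) V := le_lv _ _ (mem_adj rfl)
  have hvan : ∀ f, ∀ l ∈ S, l ≠ l₁ → Van (lv (adj O {u}) V) (Function.update z l₁ f l) :=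
    fun f l hS hne => by
      rw [Function.update_of_ne hne]
      exact hV1.van (hO (h.fr.mem l)) (hV.lt (h.van l hS))
  -- polynomials with coefficients in the maximal ideal
  have hlow : ∀ (f : F) (S' : Finset (Fin n)), S.erase l₁ ⊆ S' → ∀ r : O[X],
      (∀ i, V.valuation (r.coeff i : F) < 1) →
      aeval u r ∈ Submodule.span (lv (adj O {u}) V) (Function.update z l₁ f '' S') := by
    intro f S' hS' r hr
    have h1 : ∀ l ∈ S, l ≠ l₁ →
        z l ∈ Submodule.span (lv (adj O {u}) V) (Function.update z l₁ f '' S') := fun l hS hne =>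
      Submodule.subset_span ⟨l, hS' (Finset.mem_erase.2 ⟨hne, hS⟩), Function.update_of_ne hne _ _⟩
    rw [aeval_eq_sum]
    refine sum_mem fun i _ => ?_
    rw [mul_comm]
    refine mul_mem_span (pow_mem hu1 i) (span_le_span hO ?_ (h.gen _ (hV.van (r.coeff i).2 (hr i))))
    rintro _ ⟨l, hS, rfl⟩
    by_cases hne : l = l₁
    · rw [hne, ← div_mul_cancel₀ (z l₁) (h.fr.ne_zero l₀)]
      exact mul_mem_span hu1 (h1 l₀ h₀ hl)
    · exact h1 l hS hne
  -- reduction to polynomials
  have hred : ∀ (s : Set F), (∀ q : O[X], V.valuation (aeval u q) < 1 →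
      aeval u q ∈ Submodule.span (lv (adj O {u}) V) s) →
      ∀ x, Van (lv (adj O {u}) V) x → x ∈ Submodule.span (lv (adj O {u}) V) s := by
    intro s hs x hx
    obtain ⟨b, hb, h1, h2⟩ := hx.1
    obtain ⟨q, hq⟩ := exists_aeval h2
    rw [← inv_mul_cancel_left₀ (ne_of_val h1) x, ← hq]
    refine mul_mem_span (inv_mem_lv hb h1) (hs q ?_)
    rw [hq, map_mul, h1, one_mul]
    exact hV1.lt hx
  rcases tr_or hV hu with ht | ⟨p, hp, hp', hq⟩
  · exact Or.inl ⟨ht, (h.fr.blow hl).lv V, fun l hS => hvan _ l (Finset.mem_of_mem_erase hS)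
      (Finset.ne_of_mem_erase hS), hred _ fun q hq => hlow _ _ subset_rfl q (ht q hq)⟩
  · right
    obtain ⟨d, hd, hd'⟩ := exists_blow_der h.fr hl
    have hf : aeval u p ∈ lv (adj O {u}) V := le_lv _ _ (aeval_mem_adj p u)
    have h1 := val_der_aeval (D := d l₁) hu (fun c hc => by
      rw [← div_mul_cancel₀ (d l₁ c) (h.fr.ne_zero l₀), mul_comm]
      exact val_mul_lt (hV.lt (h.van l₀ h₀)) (hV.le _ (hd' c hc))) p
    have h2 := hd.self l₁
    rw [Function.update_self] at h2
    rw [h2, mul_one, ← hp'] at h1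
    have h3 := (hd.lv V).exch hf ((hV1.un_iff ((hd.lv V).pres l₁ _ hf)).2
      ((V.valuation.map_eq_of_sub_lt h1).trans hp'))
    rw [Function.update_idem] at h3
    refine ⟨_, h3, fun l hS => ?_, hred _ fun q hq' => ?_⟩
    · by_cases hne : l = l₁
      · rw [hne, Function.update_self]
        exact hV1.van hf hp
      · exact hvan _ l ((Finset.mem_insert.1 hS).resolve_left hne) hne
    · obtain ⟨a, r, rfl, hr⟩ := hq q hq'
      rw [map_add, map_mul, mul_comm]
      exact add_mem (hlow _ _ ((Finset.erase_subset _ _).trans (Finset.subset_insert _ _)) r hr)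
        (mul_mem_span (le_lv _ _ (aeval_mem_adj a u)) (Submodule.subset_span
          ⟨l₁, Finset.mem_insert_self _ _, Function.update_self _ _ _⟩))

/-- `O` is regular of dimension two, and `V = ord_O` -/
structure Last (O : Subalgebra k F) (V : ValuationSubring F) (z : Fin n → F) (l₀ l₁ : Fin n) :
    Prop where
  ne : l₀ ≠ l₁
  dom : Dom V O
  reg : Reg O z {l₀, l₁}
  cen : Cen V (adj O {z l₁ / z l₀})
  tr : Tr O V (z l₁ / z l₀)

theorem Last.ord2 {l₀ l₁ : Fin n} (h : Last O V z l₀ l₁) : Ord2 O (z ∘ ![l₀, l₁]) V :=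
  ⟨h.dom, h.reg.coords (by
    intro a b hab
    have h1 := h.ne
    fin_cases a <;> fin_cases b <;> simp_all) (by simp [or_comm]), h.cen, h.tr⟩

variable (n) in
/-- `O = V`, or finitely many steps lead to the last ring -/
def Good (O : Subalgebra k F) (V : ValuationSubring F) : Prop :=
  (∀ x ∈ V, x ∈ O) ∨ ∃ U : Finset F, (∀ u ∈ U, u ∈ V) ∧
    ∃ (z : Fin n → F) (l₀ l₁ : Fin n), Last (lv (adj O U) V) V z l₀ l₁

/-- a regular ring which is a valuation ring has at most one parameter -/
theorem Reg.eq_of_val (h : Reg O z S) (hO : ∀ x ∈ V, x ∈ O) {l j : Fin n} (hl : l ∈ S)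
    (hj : j ∈ S) : l = j := by
  by_contra hne
  rcases V.mem_or_inv_mem (z j / z l) with h1 | h1
  · exact h.fr.div_notMem (h.van l hl) hne (hO _ h1)
  · rw [inv_div] at h1
    exact h.fr.div_notMem (h.van j hj) (Ne.symm hne) (hO _ h1)

theorem Reg.good_of_step [CharZero k] (hV : Dom V O) (h : Reg O z S) {l₀ l₁ : Fin n}
    (h₀ : l₀ ∈ S) (h₁ : l₁ ∈ S) (hl : l₀ ≠ l₁) (hu : z l₁ / z l₀ ∈ V)
    (hG : Good n (lv (adj O {z l₁ / z l₀}) V) V) : Good n O V := by
  classical
  have hA : ∀ x ∈ adj O {z l₁ / z l₀}, x ∈ V := adj_le_val hV.le (by rintro _ rfl; exact hu)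
  right
  rcases hG with hG | ⟨U, hU, z', j₀, j₁, hG⟩
  · rcases h.step hV h₀ hl hu with ⟨ht, h1⟩ | ⟨f, h1⟩
    · have h2 : S = {l₀, l₁} := by
        ext l
        rw [Finset.mem_insert, Finset.mem_singleton]
        refine ⟨fun hS => or_iff_not_imp_right.2 fun hne => h1.eq_of_val hG
          (Finset.mem_erase.2 ⟨hne, hS⟩) (Finset.mem_erase.2 ⟨hl, h₀⟩), ?_⟩
        rintro (rfl | rfl) <;> assumption
      refine ⟨∅, by simp, z, l₀, l₁, ?_⟩
      rw [Finset.coe_empty, adj_empty, hV.lv_eq]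
      exact ⟨hl, hV, h2 ▸ h, cen_iff.2 ⟨hA, hG⟩, ht⟩
    · exact absurd (h1.eq_of_val hG (Finset.mem_insert_of_mem h₀) (Finset.mem_insert_self _ _)) hl
  · refine ⟨insert (z l₁ / z l₀) U, fun x hx => (Finset.mem_insert.1 hx).elim (fun e => e ▸ hu)
      (hU x), z', j₀, j₁, ?_⟩
    rwa [lv_adj_lv hA hU, adj_adj, ← Set.insert_eq, ← Finset.coe_insert] at hG

/-- a whole quadratic transform -/
theorem Reg.good_of_qt [CharZero k] {l₀ : Fin n} (T : Finset (Fin n)) :
    ∀ {O : Subalgebra k F} {z : Fin n → F} {S : Finset (Fin n)}, Dom V O → Reg O z S → l₀ ∈ S →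
      T ⊆ S.erase l₀ → (∀ l ∈ T, z l / z l₀ ∈ V) →
      (∀ (O' : Subalgebra k F) (z' : Fin n → F) (S' : Finset (Fin n)), Dom V O' → Reg O' z' S' →
        O ≤ O' → (∀ l ∈ T, z l / z l₀ ∈ O') → Good n O' V) → Good n O V := by
  induction T using Finset.induction_on with
  | empty => exact fun hV h _ _ _ H => H _ _ _ hV h le_rfl (by simp)
  | insert l₁ T hT ih =>
    intro O z S hV h h₀ hS hu H
    obtain ⟨hl, h₁⟩ := Finset.mem_erase.1 (hS (Finset.mem_insert_self _ _))
    have hu₁ := hu l₁ (Finset.mem_insert_self _ _)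
    have hA : ∀ x ∈ adj O {z l₁ / z l₀}, x ∈ V := adj_le_val hV.le (by rintro _ rfl; exact hu₁)
    refine h.good_of_step hV h₀ h₁ hl.symm hu₁ ?_
    obtain ⟨f, S', h1, h2⟩ : ∃ f S', Reg (lv (adj O {z l₁ / z l₀}) V) (Function.update z l₁ f) S' ∧
        S.erase l₁ ⊆ S' := by
      rcases h.step hV h₀ hl.symm hu₁ with ⟨-, h1⟩ | ⟨f, h1⟩
      · exact ⟨_, _, h1, subset_rfl⟩
      · exact ⟨_, _, h1, (Finset.erase_subset _ _).trans (Finset.subset_insert _ _)⟩
    have h3 : ∀ l ∈ T, Function.update z l₁ f l / Function.update z l₁ f l₀ = z l / z l₀ :=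
      fun l hlT => by
        rw [Function.update_of_ne hl.symm, Function.update_of_ne fun e : l = l₁ => hT (e ▸ hlT)]
    refine ih (dom_lv hA) h1 (h2 (Finset.mem_erase.2 ⟨hl.symm, h₀⟩)) (fun l hlT => ?_)
      (fun l hlT => h3 l hlT ▸ hu l (Finset.mem_insert_of_mem hlT)) fun O' z' S'' h4 h5 h6 h7 => ?_
    · obtain ⟨h4, h5⟩ := Finset.mem_erase.1 (hS (Finset.mem_insert_of_mem hlT))
      exact Finset.mem_erase.2 ⟨h4, h2 (Finset.mem_erase.2 ⟨fun e => hT (e ▸ hlT), h5⟩)⟩
    · refine H O' z' S'' h4 h5 (((le_adj _ _).trans (le_lv _ _)).trans h6) fun l hl' => ?_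
      rcases Finset.mem_insert.1 hl' with rfl | hlT
      · exact h6 (le_lv _ _ (mem_adj rfl))
      · exact h3 l hlT ▸ h7 l hlT

/-- **the chain of blow-ups along a prime divisor is finite** -/
theorem Reg.good_aux [CharZero k] {ϖ : F} (hϖ : Unif V ϖ) {s : Set F} (hs : Cen V (Algebra.adjoin k s))
    (N : ℕ) : ∀ {O : Subalgebra k F} {z : Fin n → F} {S : Finset (Fin n)} {c : F}, Dom V O →
      Reg O z S → c ∈ O → V.valuation c = V.valuation ϖ ^ N → (∀ b ∈ s, c * b ∈ O) →
      Good n O V := by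
  induction N using Nat.strong_induction_on with
  | _ N ih =>
    intro O z S c hV h hc hN hb
    have hc0 : c ≠ 0 := fun h0 => (pow_pos (val_pos (V := V) hϖ.ne) N).ne' (by rw [← hN, h0, map_zero])
    by_cases h1 : V.valuation c = 1
    · refine Or.inl (hV.of_le (hs.mono (Algebra.adjoin_le fun b hb' => ?_) hV.le))
      rw [SetLike.mem_coe, ← inv_mul_cancel_left₀ hc0 b]
      exact mul_mem (hV.inv c hc h1) (hb b hb')
    have h2 : V.valuation c < 1 := lt_of_le_of_ne (val_le (hV.le c hc)) h1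
    have h3 := h.gen c (hV.van hc h2)
    obtain ⟨l₀, h₀, hmax⟩ := S.exists_max_image (fun l => V.valuation (z l)) (by
      rw [Finset.nonempty_iff_ne_empty]
      rintro rfl
      rw [Finset.coe_empty, Set.image_empty, Submodule.span_empty, Submodule.mem_bot] at h3
      exact hc0 h3)
    have h4 := h.fr.ne_zero l₀
    refine Reg.good_of_qt (S.erase l₀) hV h h₀ subset_rfl
      (fun l hl => div_mem_of_le h4 (hmax l (Finset.mem_of_mem_erase hl)))
      fun O' z' S' hV' h' hO h5 => ?_
    have h6 : ∀ x, Van O x → x / z l₀ ∈ O' := fun x hx => div_mem_of_span hO (by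
      rintro _ ⟨l, hl, rfl⟩
      by_cases e : l = l₀
      · rw [e, div_self h4]
        exact one_mem _
      · exact h5 l (Finset.mem_erase.2 ⟨e, hl⟩)) (h.gen x hx)
    have h7 := h6 c (hV.van hc h2)
    obtain ⟨M, hM⟩ := hϖ.ex _ (div_ne_zero hc0 h4) (hV'.le _ h7)
    refine ih M ?_ hV' h' h7 hM fun b hb' => ?_
    · rw [← pow_lt_pow_iff_right_of_lt_one₀ (val_pos hϖ.ne) hϖ.lt, ← hN, ← hM]
      conv_lhs => rw [← div_mul_cancel₀ c h4, map_mul]
      exact mul_lt_of_lt_one_right (val_pos (div_ne_zero hc0 h4)) (hV.lt (h.van l₀ h₀))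
    · rw [div_mul_eq_mul_div]
      exact h6 _ (hV.van (hb b hb') (val_mul_lt h2 (hs.le b (Algebra.subset_adjoin hb'))))

theorem exists_denom (hfr : ∀ x : F, ∃ a ∈ O, ∃ c ∈ O, c ≠ 0 ∧ x = a / c) (s : Finset F) :
    ∃ c ∈ O, c ≠ 0 ∧ ∀ b ∈ s, c * b ∈ O := by
  classical
  choose a ha c hc hc0 h using hfr
  refine ⟨∏ b ∈ s, c b, prod_mem fun b _ => hc b, Finset.prod_ne_zero_iff.2 fun b _ => hc0 b,
    fun b hb => ?_⟩
  rw [← Finset.prod_erase_mul s c hb, mul_assoc]
  refine mul_mem (prod_mem fun b _ => hc b) ?_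
  rw [show c b * b = a b from ((eq_div_iff (hc0 b)).1 (h b) ▸ mul_comm _ _)]
  exact ha b

theorem Reg.good [CharZero k] {ϖ : F} (hϖ : Unif V ϖ) {B : Subalgebra k F} (hB : B.FG)
    (hs : Cen V B) (hV : Dom V O) (h : Reg O z S)
    (hfr : ∀ x : F, ∃ a ∈ O, ∃ c ∈ O, c ≠ 0 ∧ x = a / c) : Good n O V := by
  obtain ⟨s, rfl⟩ := hB
  obtain ⟨c, hc, hc0, hb⟩ := exists_denom hfr s
  obtain ⟨N, hN⟩ := hϖ.ex c hc0 (hV.le c hc)
  exact Reg.good_aux hϖ hs N hV h hc hN hb

end Crest.Agent.X262.Qt
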